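import Vale.Agent.Lib.P225R.Defs

/-!
# P225R IdII: basic integrations by parts on `ℝ^n`

`int_div`: for a compactly supported `C^∞` function `∫ ∂ᵢ G = 0`
(`integral_fderiv_eq_zero`-type lemmas, e.g. `MeasureTheory.integral_bilinear_hasLineDerivAt_right_eq_neg_left_of_integrable`
or `integral_mul_fderiv_eq_neg_fderiv_mul_of_integrable`, or Fubini). `idII`: divergence of `x h(|x|²) u²`.
-/

namespace Vale.Agent.P225

open Set MeasureTheory Filter Vale.Agent.P222
open scoped Topology ContDiff ENNReal

variable {n : ℕ} {u : (Fin n → ℝ) → ℝ} {a b : ℝ}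

theorem int_div {G : (Fin n → ℝ) → ℝ} (hG : ContDiff ℝ ∞ G) (hc : HasCompactSupport G) (i : Fin n) :
    ∫ x, pder i G x = 0 := by
  have hd : Differentiable ℝ G := hG.differentiable (by simp)
  have hcf : Continuous fun x => fderiv ℝ G x (Pi.single i 1) :=
    (hG.continuous_fderiv (by simp)).clm_apply continuous_const
  have hcs : HasCompactSupport fun x => fderiv ℝ G x (Pi.single i 1) := hc.fderiv_apply ℝ _
  have h := integral_mul_fderiv_eq_neg_fderiv_mul_of_integrable (μ := (volume : Measure (Fin n → ℝ)))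
    (f := fun _ => (1 : ℝ)) (g := G) (v := Pi.single i 1) (by simp)
    (by simpa using hcf.integrable_of_hasCompactSupport hcs)
    (by simpa using hG.continuous.integrable_of_hasCompactSupport hc)
    (fun _ _ => differentiableAt_const _) (fun x _ => hd x)
  simpa [pder] using h

theorem IdII_coord (x : Fin n → ℝ) (i : Fin n) : x i ^ 2 ≤ sq x := by
  unfold sq
  exact Finset.single_le_sum (f := fun i => x i ^ 2) (fun j _ => sq_nonneg _) (Finset.mem_univ i)

theorem sq_smooth : ContDiff ℝ ∞ (sq : (Fin n → ℝ) → ℝ) := by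
  unfold sq
  exact ContDiff.sum fun i _ => (contDiff_apply ℝ ℝ i).pow 2

theorem cut_compact {g : ℝ → ℝ} (hg : Cut a b g) {f : (Fin n → ℝ) → ℝ} (hf : Continuous f) :
    HasCompactSupport (fun x : Fin n → ℝ => g (sq x) * f x) ∧
      Continuous fun x : Fin n → ℝ => g (sq x) * f x := by
  refine ⟨HasCompactSupport.intro (isCompact_closedBall (0 : Fin n → ℝ) √b) ?_,
    (hg.s.continuous.comp sq_smooth.continuous).mul hf⟩
  intro x hx
  rw [mem_closedBall_zero_iff, pi_norm_le_iff_of_nonneg (Real.sqrt_nonneg _)] at hx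
  push Not at hx
  obtain ⟨i, hi⟩ := hx
  rw [Real.norm_eq_abs] at hi
  have h1 : b < sq x := by
    refine lt_of_lt_of_le ?_ (IdII_coord x i)
    rw [← sq_abs]
    exact (Real.sqrt_lt' (lt_of_le_of_lt (Real.sqrt_nonneg _) hi)).1 hi
  rw [hg.supp _ fun h => absurd h.2 (not_le.2 h1), zero_mul]

theorem IdII_pder_sq (i : Fin n) (x : Fin n → ℝ) : pder i sq x = 2 * x i := by
  have h : HasFDerivAt (sq : (Fin n → ℝ) → ℝ)
      (∑ j, (2 * x j) • (ContinuousLinearMap.proj j : (Fin n → ℝ) →L[ℝ] ℝ)) x := by
    unfold sq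
    refine HasFDerivAt.fun_sum fun j _ => ?_
    have h1 := (hasFDerivAt_apply (𝕜 := ℝ) j x).pow 2
    refine h1.congr_fderiv ?_
    ext v
    simp
  unfold pder
  rw [h.fderiv]
  simp [Pi.single_apply]

theorem pder_comp_sq {g : ℝ → ℝ} (hg : ContDiff ℝ ∞ g) (i : Fin n) (x : Fin n → ℝ) :
    pder i (fun x : Fin n → ℝ => g (sq x)) x = 2 * x i * deriv g (sq x) := by
  have h1 : HasDerivAt g (deriv g (sq x)) (sq x) :=
    (hg.differentiable (by simp) (sq x)).hasDerivAt
  have h2 : HasFDerivAt (sq : (Fin n → ℝ) → ℝ) (fderiv ℝ sq x) x :=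
    (sq_smooth.differentiable (by simp) x).hasFDerivAt
  have h3 := h1.comp_hasFDerivAt x h2
  have h4 := IdII_pder_sq i x
  unfold pder at h4 ⊢
  have h5 : fderiv ℝ (fun x : Fin n → ℝ => g (sq x)) x = deriv g (sq x) • fderiv ℝ sq x := h3.fderiv
  rw [h5, _root_.smul_apply, h4, smul_eq_mul]
  ring

theorem IdII_mul {f g : (Fin n → ℝ) → ℝ} (hf : Differentiable ℝ f) (hg : Differentiable ℝ g)
    (i : Fin n) (x : Fin n → ℝ) :
    pder i (fun x => f x * g x) x = pder i f x * g x + f x * pder i g x := by
  unfold pder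
  rw [fderiv_fun_mul (hf x) (hg x)]
  simp only [_root_.add_apply, _root_.smul_apply, smul_eq_mul]
  ring

theorem IdII_cut_deriv {g : ℝ → ℝ} (hg : Cut a b g) : Cut a b (deriv g) where
  a0 := hg.a0
  s := by
    have h := hg.s
    exact (contDiff_infty_iff_deriv.1 h).2
  supp := fun s hs => by
    have h1 : g =ᶠ[𝓝 s] fun _ => 0 := by
      filter_upwards [isClosed_Icc.isOpen_compl.mem_nhds hs] with t ht using hg.supp t ht
    rw [h1.deriv_eq, deriv_const]

theorem idII (hu : ContDiff ℝ ∞ u) {h : ℝ → ℝ} (hh : Cut a b h) :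
    ∫ x, 2 * h (sq x) * u x * eu u x =
      -∫ x, ((n : ℝ) * h (sq x) + 2 * sq x * deriv h (sq x)) * u x ^ 2 := by
  have hud : Differentiable ℝ u := hu.differentiable (by simp)
  have hpc : ∀ i, Continuous (pder i u) := fun i =>
    (hu.continuous_fderiv (by simp)).clm_apply continuous_const
  have hec : Continuous (eu u) := by
    unfold eu
    exact continuous_finsetSum _ fun i _ => (continuous_apply i).mul (hpc i)
  have hGs : ∀ i : Fin n, ContDiff ℝ ∞ fun x : Fin n → ℝ => h (sq x) * (x i * u x ^ 2) := fun i =>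
    (hh.s.comp sq_smooth).mul ((contDiff_apply ℝ ℝ i).mul (hu.pow 2))
  have hGc : ∀ i : Fin n, HasCompactSupport fun x : Fin n → ℝ => h (sq x) * (x i * u x ^ 2) :=
    fun i => (cut_compact hh ((continuous_apply i).mul (hu.continuous.pow 2))).1
  have h0 : ∀ i : Fin n, ∫ x, pder i (fun x : Fin n → ℝ => h (sq x) * (x i * u x ^ 2)) x = 0 :=
    fun i => int_div (hGs i) (hGc i) i
  have hint : ∀ i : Fin n, Integrable fun x =>
      pder i (fun x : Fin n → ℝ => h (sq x) * (x i * u x ^ 2)) x := fun i =>
    (((hGs i).continuous_fderiv (by simp)).clm_apply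
      continuous_const).integrable_of_hasCompactSupport ((hGc i).fderiv_apply ℝ _)
  have hsum : ∫ x, ∑ i, pder i (fun x : Fin n → ℝ => h (sq x) * (x i * u x ^ 2)) x = 0 := by
    rw [integral_finsetSum _ fun i _ => hint i]
    exact Finset.sum_eq_zero fun i _ => h0 i
  have hpt : ∀ x : Fin n → ℝ, ∑ i, pder i (fun x : Fin n → ℝ => h (sq x) * (x i * u x ^ 2)) x =
      2 * h (sq x) * u x * eu u x +
        ((n : ℝ) * h (sq x) + 2 * sq x * deriv h (sq x)) * u x ^ 2 := by
    intro x
    have h1 : ∀ i, pder i (fun x : Fin n → ℝ => h (sq x) * (x i * u x ^ 2)) x =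
        (2 * deriv h (sq x) * u x ^ 2) * x i ^ 2 + h (sq x) * u x ^ 2 +
          (2 * h (sq x) * u x) * (x i * pder i u x) := by
      intro i
      have hc : pder i (fun x : Fin n → ℝ => x i) x = 1 := by
        unfold pder
        rw [(hasFDerivAt_apply (𝕜 := ℝ) i x).fderiv]
        simp
      have hsq : pder i (fun x : Fin n → ℝ => u x ^ 2) x = 2 * u x * pder i u x := by
        have e : (fun x : Fin n → ℝ => u x ^ 2) = fun x => u x * u x := by
          funext y
          ring
        rw [e, IdII_mul hud hud]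
        ring
      have hd1 : Differentiable ℝ fun x : Fin n → ℝ => x i := differentiable_apply i
      have hd2 : Differentiable ℝ fun x : Fin n → ℝ => u x ^ 2 := hud.pow 2
      have hd3 : Differentiable ℝ fun x : Fin n → ℝ => h (sq x) :=
        (hh.s.comp sq_smooth).differentiable (by simp)
      have hd12 : Differentiable ℝ fun x : Fin n → ℝ => x i * u x ^ 2 := hd1.mul hd2
      rw [IdII_mul hd3 hd12, pder_comp_sq hh.s,
        show pder i (fun x : Fin n → ℝ => x i * u x ^ 2) x =
          1 * u x ^ 2 + x i * (2 * u x * pder i u x) by rw [IdII_mul hd1 hd2, hc, hsq]]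
      ring
    simp only [h1]
    have s1 : ∑ i, (2 * deriv h (sq x) * u x ^ 2) * x i ^ 2 =
        (2 * deriv h (sq x) * u x ^ 2) * sq x := by
      rw [← Finset.mul_sum]
      rfl
    have s3 : ∑ i, (2 * h (sq x) * u x) * (x i * pder i u x) =
        (2 * h (sq x) * u x) * eu u x := by
      rw [← Finset.mul_sum]
      rfl
    rw [Finset.sum_add_distrib, Finset.sum_add_distrib, s1, s3,
      Finset.sum_const, Finset.card_univ, Fintype.card_fin, nsmul_eq_mul]
    ring
  simp only [hpt] at hsum
  have i1 : Integrable fun x : Fin n → ℝ => 2 * h (sq x) * u x * eu u x := by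
    have h1 := cut_compact hh (f := fun x : Fin n → ℝ => 2 * u x * eu u x)
      ((continuous_const.mul hu.continuous).mul hec)
    have h2 := h1.2.integrable_of_hasCompactSupport (μ := volume) h1.1
    refine h2.congr (Filter.Eventually.of_forall fun x => ?_)
    dsimp only
    ring
  have i2 : Integrable fun x : Fin n → ℝ =>
      ((n : ℝ) * h (sq x) + 2 * sq x * deriv h (sq x)) * u x ^ 2 := by
    have h1 := cut_compact hh (f := fun x : Fin n → ℝ => (n : ℝ) * u x ^ 2)
      (continuous_const.mul (hu.continuous.pow 2))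
    have h2 := h1.2.integrable_of_hasCompactSupport (μ := volume) h1.1
    have h3 := cut_compact (IdII_cut_deriv hh) (f := fun x : Fin n → ℝ => 2 * sq x * u x ^ 2)
      ((continuous_const.mul sq_smooth.continuous).mul (hu.continuous.pow 2))
    have h4 := h3.2.integrable_of_hasCompactSupport (μ := volume) h3.1
    refine (h2.add h4).congr (Filter.Eventually.of_forall fun x => ?_)
    simp only [Pi.add_apply]
    ring
  rw [integral_add i1 i2] at hsum
  linarith

end Vale.Agent.P225
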