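import Vale.Agent.Lib.P225R.Defs

/-!
# P225R CutE: cutoff functions

`Real.smoothTransition`: `χ s = T (R s - 1) T (2 - s/R)`, `η s = T (2 s/r - 1) T (2 - s/(2 r))`; the derivatives of `T` are
bounded (continuous, zero outside `[0, 1]`).
-/

namespace Vale.Agent.P225

open Set MeasureTheory Filter Vale.Agent.P222
open scoped Topology ContDiff ENNReal

private noncomputable def CE_T : ℝ → ℝ := Real.smoothTransition

private lemma CE_T_smooth : ContDiff ℝ ∞ CE_T := Real.smoothTransition.contDiff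

private lemma CE_T_nonneg (x : ℝ) : 0 ≤ CE_T x := Real.smoothTransition.nonneg x

private lemma CE_T_le_one (x : ℝ) : CE_T x ≤ 1 := Real.smoothTransition.le_one x

private lemma CE_T_zero {x : ℝ} (h : x ≤ 0) : CE_T x = 0 :=
  Real.smoothTransition.zero_of_nonpos h

private lemma CE_T_one {x : ℝ} (h : 1 ≤ x) : CE_T x = 1 :=
  Real.smoothTransition.one_of_one_le h

private lemma CE_T1_smooth : ContDiff ℝ ∞ (deriv CE_T) :=
  (contDiff_infty_iff_deriv.mp CE_T_smooth).2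

private lemma CE_T1_smooth' : Differentiable ℝ (deriv CE_T) :=
  CE_T1_smooth.differentiable (by simp)

private lemma CE_T2_cont : Continuous (deriv (deriv CE_T)) :=
  CE_T1_smooth.continuous_deriv (by simp)

private lemma CE_T1_zero {x : ℝ} (h : x < 0 ∨ 1 < x) : deriv CE_T x = 0 := by
  rcases h with h | h
  · have : CE_T =ᶠ[𝓝 x] fun _ => 0 := by
      filter_upwards [Iio_mem_nhds h] with y hy
      exact CE_T_zero (le_of_lt hy)
    rw [this.deriv_eq]
    simp
  · have : CE_T =ᶠ[𝓝 x] fun _ => 1 := by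
      filter_upwards [Ioi_mem_nhds h] with y hy
      exact CE_T_one (le_of_lt hy)
    rw [this.deriv_eq]
    simp

private lemma CE_T2_zero {x : ℝ} (h : x < 0 ∨ 1 < x) : deriv (deriv CE_T) x = 0 := by
  have : deriv CE_T =ᶠ[𝓝 x] fun _ => 0 := by
    rcases h with h | h
    · filter_upwards [Iio_mem_nhds h] with y hy
      exact CE_T1_zero (Or.inl hy)
    · filter_upwards [Ioi_mem_nhds h] with y hy
      exact CE_T1_zero (Or.inr hy)
  rw [this.deriv_eq]
  simp

private lemma CE_bound : ∃ M : ℝ, 0 < M ∧ ∀ x, |deriv CE_T x| ≤ M ∧ |deriv (deriv CE_T) x| ≤ M := by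
  obtain ⟨M₁, h₁⟩ := isCompact_Icc.exists_bound_of_continuousOn (s := Icc (0 : ℝ) 1)
    (CE_T1_smooth.continuous.continuousOn)
  obtain ⟨M₂, h₂⟩ := isCompact_Icc.exists_bound_of_continuousOn (s := Icc (0 : ℝ) 1)
    (CE_T2_cont.continuousOn)
  refine ⟨max (max M₁ M₂) 1, by positivity, fun x => ?_⟩
  by_cases hx : x ∈ Icc (0 : ℝ) 1
  · exact ⟨((h₁ x hx).trans (le_max_left _ _)).trans (le_max_left _ _),
      ((h₂ x hx).trans (le_max_right _ _)).trans (le_max_left _ _)⟩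
  · have h : x < 0 ∨ 1 < x := by
      by_contra hcon
      push Not at hcon
      exact hx hcon
    rw [CE_T1_zero h, CE_T2_zero h, abs_zero]
    exact ⟨by positivity, by positivity⟩

private noncomputable def CE_G (α β s : ℝ) : ℝ := CE_T (α * s - 1) * CE_T (2 - β * s)

private lemma CE_has {f : ℝ → ℝ} (hf : Differentiable ℝ f) (α s : ℝ) :
    HasDerivAt (fun s => f (α * s - 1)) (α * deriv f (α * s - 1)) s := by
  have h1 : HasDerivAt (fun s : ℝ => α * s - 1) α s := by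
    simpa using ((hasDerivAt_id s).const_mul α).sub_const 1
  have h2 := HasDerivAt.comp (h₂ := f) s (hf (α * s - 1)).hasDerivAt h1
  rw [mul_comm] at h2
  exact h2

private lemma CE_has' {f : ℝ → ℝ} (hf : Differentiable ℝ f) (β s : ℝ) :
    HasDerivAt (fun s => f (2 - β * s)) (-(β * deriv f (2 - β * s))) s := by
  have h1 : HasDerivAt (fun s : ℝ => 2 - β * s) (-β) s := by
    simpa using ((hasDerivAt_id s).const_mul β).const_sub 2
  have h2 := HasDerivAt.comp (h₂ := f) s (hf (2 - β * s)).hasDerivAt h1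
  rw [mul_comm, neg_mul] at h2
  exact h2

private lemma CE_diff : Differentiable ℝ CE_T := CE_T_smooth.differentiable (by simp)

private lemma CE_deriv (α β : ℝ) : deriv (CE_G α β) = fun s =>
    α * deriv CE_T (α * s - 1) * CE_T (2 - β * s) -
      CE_T (α * s - 1) * (β * deriv CE_T (2 - β * s)) := by
  funext s
  have h := (CE_has CE_diff α s).mul (CE_has' CE_diff β s)
  have h2 : deriv (CE_G α β) s = _ := h.deriv
  rw [h2]
  ring

private lemma CE_deriv2 (α β s : ℝ) : deriv (deriv (CE_G α β)) s =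
    α ^ 2 * deriv (deriv CE_T) (α * s - 1) * CE_T (2 - β * s) -
      2 * (α * deriv CE_T (α * s - 1)) * (β * deriv CE_T (2 - β * s)) +
      CE_T (α * s - 1) * (β ^ 2 * deriv (deriv CE_T) (2 - β * s)) := by
  rw [CE_deriv]
  have h1 := ((CE_has CE_T1_smooth' α s).const_mul α).mul (CE_has' CE_diff β s)
  have h2 := (CE_has CE_diff α s).mul ((CE_has' CE_T1_smooth' β s).const_mul β)
  have h3 := h1.sub h2
  have h4 : deriv (fun s => α * deriv CE_T (α * s - 1) * CE_T (2 - β * s) -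
      CE_T (α * s - 1) * (β * deriv CE_T (2 - β * s))) s = _ := h3.deriv
  rw [h4]
  ring

private lemma CE_smooth (α β : ℝ) : ContDiff ℝ ∞ (CE_G α β) := by
  have h1 : ContDiff ℝ ∞ (fun s : ℝ => α * s - 1) := by fun_prop
  have h2 : ContDiff ℝ ∞ (fun s : ℝ => 2 - β * s) := by fun_prop
  exact (CE_T_smooth.comp h1).mul (CE_T_smooth.comp h2)

private lemma CE_le (α β s : ℝ) : 0 ≤ CE_G α β s ∧ CE_G α β s ≤ 1 := by
  unfold CE_G
  exact ⟨mul_nonneg (CE_T_nonneg _) (CE_T_nonneg _),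
    mul_le_one₀ (CE_T_le_one _) (CE_T_nonneg _) (CE_T_le_one _)⟩

private lemma CE_supp {α β s : ℝ} (h : α * s ≤ 1 ∨ 2 ≤ β * s) : CE_G α β s = 0 := by
  unfold CE_G
  rcases h with h | h
  · rw [CE_T_zero (by linarith), zero_mul]
  · rw [CE_T_zero (x := 2 - β * s) (by linarith), mul_zero]

private lemma CE_one {α β s : ℝ} (h : 2 ≤ α * s) (h' : β * s ≤ 1) : CE_G α β s = 1 := by
  unfold CE_G
  rw [CE_T_one (by linarith), CE_T_one (by linarith), one_mul]

private lemma CE_flat {α β s : ℝ} (h : α * s < 1 ∨ (2 < α * s ∧ β * s < 1) ∨ 2 < β * s) :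
    deriv (CE_G α β) s = 0 ∧ deriv (deriv (CE_G α β)) s = 0 := by
  rw [CE_deriv2, CE_deriv]
  simp only
  rcases h with h | ⟨h, h'⟩ | h
  · rw [CE_T1_zero (Or.inl (by linarith : α * s - 1 < 0)),
      CE_T2_zero (Or.inl (by linarith : α * s - 1 < 0)), CE_T_zero (x := α * s - 1) (by linarith)]
    simp
  · rw [CE_T1_zero (Or.inr (by linarith : 1 < α * s - 1)),
      CE_T2_zero (Or.inr (by linarith : 1 < α * s - 1)),
      CE_T1_zero (Or.inr (by linarith : 1 < 2 - β * s)),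
      CE_T2_zero (Or.inr (by linarith : 1 < 2 - β * s))]
    simp
  · rw [CE_T1_zero (Or.inl (by linarith : 2 - β * s < 0)),
      CE_T2_zero (Or.inl (by linarith : 2 - β * s < 0)), CE_T_zero (x := 2 - β * s) (by linarith)]
    simp

private lemma CE_b1 {M α s : ℝ} (hM : 0 < M) (hb : ∀ x, |deriv CE_T x| ≤ M) (hα : 0 < α)
    (hs : 0 < s) : |α * deriv CE_T (α * s - 1)| ≤ 2 * M / s := by
  rw [le_div_iff₀ hs, abs_mul, abs_of_pos hα]
  rcases le_or_gt (α * s) 2 with h | h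
  · nlinarith [hb (α * s - 1), abs_nonneg (deriv CE_T (α * s - 1)), mul_pos hα hs]
  · rw [CE_T1_zero (Or.inr (by linarith : 1 < α * s - 1))]
    simp
    positivity

private lemma CE_b2 {M β s : ℝ} (hM : 0 < M) (hb : ∀ x, |deriv CE_T x| ≤ M) (hβ : 0 < β)
    (hs : 0 < s) : |β * deriv CE_T (2 - β * s)| ≤ 2 * M / s := by
  rw [le_div_iff₀ hs, abs_mul, abs_of_pos hβ]
  rcases le_or_gt (β * s) 2 with h | h
  · nlinarith [hb (2 - β * s), abs_nonneg (deriv CE_T (2 - β * s)), mul_pos hβ hs]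
  · rw [CE_T1_zero (Or.inl (by linarith : 2 - β * s < 0))]
    simp
    positivity

private lemma CE_c1 {M α s : ℝ} (hM : 0 < M) (hb : ∀ x, |deriv (deriv CE_T) x| ≤ M) (hα : 0 < α)
    (hs : 0 < s) : |α ^ 2 * deriv (deriv CE_T) (α * s - 1)| ≤ 4 * M / s ^ 2 := by
  rw [le_div_iff₀ (by positivity), abs_mul, abs_of_pos (by positivity : 0 < α ^ 2)]
  rcases le_or_gt (α * s) 2 with h | h
  · have h1 : α ^ 2 * s ^ 2 ≤ 4 := by nlinarith [mul_pos hα hs]
    have h2 := hb (α * s - 1)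
    have h3 := abs_nonneg (deriv (deriv CE_T) (α * s - 1))
    calc α ^ 2 * |deriv (deriv CE_T) (α * s - 1)| * s ^ 2
        = α ^ 2 * s ^ 2 * |deriv (deriv CE_T) (α * s - 1)| := by ring
      _ ≤ 4 * M := mul_le_mul h1 h2 h3 (by norm_num)
  · rw [CE_T2_zero (Or.inr (by linarith : 1 < α * s - 1))]
    simp
    positivity

private lemma CE_c2 {M β s : ℝ} (hM : 0 < M) (hb : ∀ x, |deriv (deriv CE_T) x| ≤ M) (hβ : 0 < β)
    (hs : 0 < s) : |β ^ 2 * deriv (deriv CE_T) (2 - β * s)| ≤ 4 * M / s ^ 2 := by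
  rw [le_div_iff₀ (by positivity), abs_mul, abs_of_pos (by positivity : 0 < β ^ 2)]
  rcases le_or_gt (β * s) 2 with h | h
  · have h1 : β ^ 2 * s ^ 2 ≤ 4 := by nlinarith [mul_pos hβ hs]
    have h2 := hb (2 - β * s)
    have h3 := abs_nonneg (deriv (deriv CE_T) (2 - β * s))
    calc β ^ 2 * |deriv (deriv CE_T) (2 - β * s)| * s ^ 2
        = β ^ 2 * s ^ 2 * |deriv (deriv CE_T) (2 - β * s)| := by ring
      _ ≤ 4 * M := mul_le_mul h1 h2 h3 (by norm_num)
  · rw [CE_T2_zero (Or.inl (by linarith : 2 - β * s < 0))]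
    simp
    positivity

private lemma CE_absT (x : ℝ) : |CE_T x| ≤ 1 := by
  rw [abs_of_nonneg (CE_T_nonneg x)]
  exact CE_T_le_one x

private lemma CE_d1 {M α β s : ℝ} (hM : 0 < M) (hb : ∀ x, |deriv CE_T x| ≤ M) (hα : 0 < α)
    (hβ : 0 < β) (hs : 0 < s) : |deriv (CE_G α β) s| ≤ 4 * M / s := by
  rw [CE_deriv]
  simp only
  have h1 := CE_b1 hM hb hα hs
  have h2 := CE_b2 hM hb hβ hs
  have h3 := CE_absT (2 - β * s)
  have h4 := CE_absT (α * s - 1)
  have h0 : 0 ≤ 2 * M / s := by positivity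
  have e1 : |α * deriv CE_T (α * s - 1) * CE_T (2 - β * s)| ≤ 2 * M / s := by
    rw [abs_mul]
    calc _ ≤ 2 * M / s * 1 := mul_le_mul h1 h3 (abs_nonneg _) h0
      _ = _ := mul_one _
  have e2 : |CE_T (α * s - 1) * (β * deriv CE_T (2 - β * s))| ≤ 2 * M / s := by
    rw [abs_mul]
    calc _ ≤ 1 * (2 * M / s) := mul_le_mul h4 h2 (abs_nonneg _) zero_le_one
      _ = _ := one_mul _
  have e3 := abs_sub (α * deriv CE_T (α * s - 1) * CE_T (2 - β * s))
    (CE_T (α * s - 1) * (β * deriv CE_T (2 - β * s)))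
  have e4 : 4 * M / s = 2 * M / s + 2 * M / s := by ring
  linarith

private lemma CE_d2 {M α β s : ℝ} (hM : 0 < M)
    (hb : ∀ x, |deriv CE_T x| ≤ M) (hb2 : ∀ x, |deriv (deriv CE_T) x| ≤ M) (hα : 0 < α)
    (hβ : 0 < β) (hs : 0 < s) :
    |deriv (deriv (CE_G α β)) s| ≤ (8 * M + 8 * M ^ 2) / s ^ 2 := by
  rw [CE_deriv2]
  have h1 := CE_b1 hM hb hα hs
  have h2 := CE_b2 hM hb hβ hs
  have c1 := CE_c1 hM hb2 hα hs
  have c2 := CE_c2 hM hb2 hβ hs
  have h3 := CE_absT (2 - β * s)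
  have h4 := CE_absT (α * s - 1)
  have h0 : 0 ≤ 4 * M / s ^ 2 := by positivity
  have h0' : 0 ≤ 2 * M / s := by positivity
  have e1 : |α ^ 2 * deriv (deriv CE_T) (α * s - 1) * CE_T (2 - β * s)| ≤ 4 * M / s ^ 2 := by
    rw [abs_mul]
    calc _ ≤ 4 * M / s ^ 2 * 1 := mul_le_mul c1 h3 (abs_nonneg _) h0
      _ = _ := mul_one _
  have e2 : |CE_T (α * s - 1) * (β ^ 2 * deriv (deriv CE_T) (2 - β * s))| ≤ 4 * M / s ^ 2 := by
    rw [abs_mul]
    calc _ ≤ 1 * (4 * M / s ^ 2) := mul_le_mul h4 c2 (abs_nonneg _) zero_le_one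
      _ = _ := one_mul _
  have e3 : |2 * (α * deriv CE_T (α * s - 1)) * (β * deriv CE_T (2 - β * s))| ≤
      8 * M ^ 2 / s ^ 2 := by
    rw [abs_mul, abs_mul, abs_two]
    calc _ ≤ 2 * (2 * M / s) * (2 * M / s) :=
          mul_le_mul (mul_le_mul_of_nonneg_left h1 (by norm_num)) h2 (abs_nonneg _) (by positivity)
      _ = _ := by
          field_simp
          ring
  have e4 : (8 * M + 8 * M ^ 2) / s ^ 2 = 4 * M / s ^ 2 + 8 * M ^ 2 / s ^ 2 + 4 * M / s ^ 2 := by
    ring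
  rw [e4]
  refine (abs_add_le _ _).trans (add_le_add ((abs_sub _ _).trans (add_le_add e1 e3)) e2)

theorem cut1 : ∃ C : ℝ, 0 < C ∧ ∀ R : ℝ, 2 ≤ R → ∃ χ : ℝ → ℝ, Cut (1 / R) (2 * R) χ ∧
    (∀ s, 0 ≤ χ s ∧ χ s ≤ 1) ∧ (∀ s ∈ Icc (2 / R) R, χ s = 1) ∧
    (∀ s, 0 < s → |deriv χ s| ≤ C / s ∧ |deriv (deriv χ) s| ≤ C / s ^ 2) ∧
    ∀ s, s ∉ Icc (1 / R) (2 / R) → s ∉ Icc R (2 * R) → deriv χ s = 0 ∧ deriv (deriv χ) s = 0 := by
  obtain ⟨M, hM, hb⟩ := CE_bound
  refine ⟨8 * M + 8 * M ^ 2, by positivity, fun R hR => ?_⟩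
  have hR0 : 0 < R := by linarith
  have hi : 0 < 1 / R := by positivity
  refine ⟨CE_G R (1 / R), ⟨hi, CE_smooth _ _, fun s hs => ?_⟩, fun s => CE_le _ _ _,
    fun s hs => ?_, fun s hs => ⟨?_, ?_⟩, fun s h1 h2 => ?_⟩
  · apply CE_supp
    rw [mem_Icc, not_and_or, not_le, not_le] at hs
    rcases hs with hs | hs
    · left
      rw [lt_div_iff₀ hR0] at hs
      linarith
    · right
      rw [one_div, inv_mul_eq_div, le_div_iff₀ hR0]
      linarith
  · refine CE_one ?_ ?_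
    · have := hs.1
      rw [div_le_iff₀ hR0] at this
      linarith
    · rw [one_div, inv_mul_eq_div, div_le_one hR0]
      exact hs.2
  · refine (CE_d1 hM (fun x => (hb x).1) hR0 hi hs).trans ?_
    refine div_le_div_of_nonneg_right ?_ hs.le
    nlinarith [sq_nonneg M]
  · exact CE_d2 hM (fun x => (hb x).1) (fun x => (hb x).2) hR0 hi hs
  · apply CE_flat
    rw [mem_Icc, not_and_or, not_le, not_le] at h1 h2
    rcases h1 with h1 | h1
    · left
      rw [lt_div_iff₀ hR0] at h1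
      linarith
    · right
      rcases h2 with h2 | h2
      · left
        constructor
        · rw [div_lt_iff₀ hR0] at h1
          linarith
        · rw [one_div, inv_mul_eq_div, div_lt_one hR0]
          exact h2
      · right
        rw [one_div, inv_mul_eq_div, lt_div_iff₀ hR0]
        exact h2

theorem cut2 : ∃ C : ℝ, 0 < C ∧ ∀ r : ℝ, 0 < r → ∃ η : ℝ → ℝ, Cut (r / 2) (4 * r) η ∧
    (∀ s, 0 ≤ η s ∧ η s ≤ 1) ∧ (∀ s ∈ Icc r (2 * r), η s = 1) ∧
    ∀ s, 0 < s → |deriv η s| ≤ C / s := by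
  obtain ⟨M, hM, hb⟩ := CE_bound
  refine ⟨4 * M, by positivity, fun r hr => ?_⟩
  refine ⟨CE_G (2 / r) (1 / (2 * r)), ⟨by positivity, CE_smooth _ _, fun s hs => ?_⟩,
    fun s => CE_le _ _ _, fun s hs => ?_,
    fun s hs => CE_d1 hM (fun x => (hb x).1) (by positivity) (by positivity) hs⟩
  · apply CE_supp
    rw [mem_Icc, not_and_or, not_le, not_le] at hs
    rcases hs with hs | hs
    · left
      rw [div_mul_eq_mul_div, div_le_one hr]
      linarith
    · right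
      rw [one_div, inv_mul_eq_div, le_div_iff₀ (by positivity)]
      linarith
  · refine CE_one ?_ ?_
    · rw [div_mul_eq_mul_div, le_div_iff₀ hr]
      linarith [hs.1]
    · rw [one_div, inv_mul_eq_div, div_le_one (by positivity)]
      exact hs.2

end Vale.Agent.P225
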