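import Vale.Agent.Lib.P225R.Cacc
import Vale.Agent.Lib.P225R.CutE

/-!
# P225R Ann: estimates on annuli

`ann`: `cacc` with `η` from `cut2`; on the support `1/s ≤ 2/r` and `s η'² ≤ C²/s`. `volA`: the annulus lies in the cube
`|xᵢ| ≤ 2 √r`.
-/

namespace Vale.Agent.P225

open Set MeasureTheory Filter Vale.Agent.P222
open scoped Topology ContDiff ENNReal

variable {n : ℕ} {u : (Fin n → ℝ) → ℝ}

private theorem Ann_sq_cont : Continuous (sq : (Fin n → ℝ) → ℝ) := by
  unfold sq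
  fun_prop

private theorem Ann_sub (a r : ℝ) (hr : 0 < r) : {x : Fin n → ℝ | a ≤ sq x ∧ sq x ≤ 4 * r} ⊆
    Icc (fun _ => -(2 * Real.sqrt r)) (fun _ => 2 * Real.sqrt r) := by
  intro x hx
  have h1 : ∀ i, |x i| ≤ 2 * Real.sqrt r := by
    intro i
    have h2 : x i ^ 2 ≤ sq x := by
      unfold sq
      exact Finset.single_le_sum (f := fun i => x i ^ 2) (fun j _ => sq_nonneg (x j))
        (Finset.mem_univ i)
    have h3 : x i ^ 2 ≤ (2 * Real.sqrt r) ^ 2 := by
      rw [mul_pow, Real.sq_sqrt hr.le]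
      have := hx.2
      linarith
    exact abs_le_of_sq_le_sq h3 (by positivity)
  constructor
  · intro i
    exact (abs_le.1 (h1 i)).1
  · intro i
    exact (abs_le.1 (h1 i)).2

private theorem Ann_closed (a b : ℝ) : IsClosed {x : Fin n → ℝ | a ≤ sq x ∧ sq x ≤ b} :=
  (isClosed_le continuous_const Ann_sq_cont).inter (isClosed_le Ann_sq_cont continuous_const)

private theorem Ann_compact (a r : ℝ) (hr : 0 < r) :
    IsCompact {x : Fin n → ℝ | a ≤ sq x ∧ sq x ≤ 4 * r} :=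
  isCompact_Icc.of_isClosed_subset (Ann_closed a (4 * r)) (Ann_sub a r hr)

private theorem Ann_deriv {a b : ℝ} {g : ℝ → ℝ} (hg : Cut a b g) (s : ℝ) (hs : s ∉ Icc a b) :
    deriv g s = 0 := by
  have h1 : g =ᶠ[𝓝 s] fun _ => 0 := by
    filter_upwards [isClosed_Icc.isOpen_compl.mem_nhds hs] with y hy
    exact hg.supp y hy
  rw [h1.deriv_eq]
  exact deriv_const _ _

theorem ann {B : ℝ → ℝ} (hB : Cb n B) (hn : 2 ≤ n) (hu : ContDiff ℝ ∞ u) (hp : Pde B u) :
    ∃ C : ℝ, 0 < C ∧ ∀ r : ℝ, 0 < r → ∫ x in {x : Fin n → ℝ | r ≤ sq x ∧ sq x ≤ 2 * r}, gr u x ≤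
      C / r * ∫ x in {x : Fin n → ℝ | r / 2 ≤ sq x ∧ sq x ≤ 4 * r}, u x ^ 2 := by
  obtain ⟨C, hC, hcut⟩ := cut2
  refine ⟨(2 * (n : ℝ) ^ 2 + 32) * (2 + 2 * C ^ 2), by positivity, fun r hr => ?_⟩
  obtain ⟨η, hη, hη1, hη2, hη3⟩ := hcut r hr
  have hmain := cacc hB hn hu hp hη
  have hgr0 : ∀ x, 0 ≤ gr u x := fun x => Finset.sum_nonneg fun i _ => sq_nonneg _
  have hgrc : Continuous (gr u) := by
    unfold gr
    refine continuous_finsetSum _ fun i _ => ?_
    have : Continuous (pder i u) := (contDiff_pder hu i).continuous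
    fun_prop
  have hηc : Continuous η := hη.s.continuous
  have hint : Integrable (fun x : Fin n → ℝ => η (sq x) ^ 2 * gr u x) := by
    refine Continuous.integrable_of_hasCompactSupport ?_ ?_
    · have := Ann_sq_cont (n := n)
      fun_prop
    · refine HasCompactSupport.intro (Ann_compact (r / 2) r hr) fun x hx => ?_
      have : η (sq x) = 0 := hη.supp _ fun h => hx ⟨h.1, h.2⟩
      rw [this]
      simp
  have hL : ∫ x in {x : Fin n → ℝ | r ≤ sq x ∧ sq x ≤ 2 * r}, gr u x ≤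
      ∫ x, η (sq x) ^ 2 * gr u x := by
    have h1 : ∫ x in {x : Fin n → ℝ | r ≤ sq x ∧ sq x ≤ 2 * r}, gr u x =
        ∫ x in {x : Fin n → ℝ | r ≤ sq x ∧ sq x ≤ 2 * r}, η (sq x) ^ 2 * gr u x := by
      refine setIntegral_congr_fun (Ann_closed r (2 * r)).measurableSet fun x hx => ?_
      rw [hη2 (sq x) ⟨hx.1, hx.2⟩]
      ring
    rw [h1]
    exact setIntegral_le_integral hint (Eventually.of_forall fun x =>
      mul_nonneg (sq_nonneg _) (hgr0 x))
  have hR : ∫ x, (η (sq x) ^ 2 / sq x + sq x * deriv η (sq x) ^ 2) * u x ^ 2 ≤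
      (2 + 2 * C ^ 2) / r * ∫ x in {x : Fin n → ℝ | r / 2 ≤ sq x ∧ sq x ≤ 4 * r}, u x ^ 2 := by
    rw [← integral_const_mul]
    rw [← setIntegral_eq_integral_of_forall_compl_eq_zero
      (s := {x : Fin n → ℝ | r / 2 ≤ sq x ∧ sq x ≤ 4 * r})]
    · refine integral_mono_of_nonneg ?_ ?_ ?_
      · refine (ae_restrict_iff' (Ann_closed (r / 2) (4 * r)).measurableSet).2
          (Eventually.of_forall fun x hx => ?_)
        have hs : 0 < sq x := by
          have := hx.1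
          linarith
        simp only [Pi.zero_apply]
        positivity
      · refine ContinuousOn.integrableOn_compact (Ann_compact (r / 2) r hr) ?_
        have := hu.continuous
        exact (by fun_prop : Continuous fun x => (2 + 2 * C ^ 2) / r * u x ^ 2).continuousOn
      · refine (ae_restrict_iff' (Ann_closed (r / 2) (4 * r)).measurableSet).2
          (Eventually.of_forall fun x hx => ?_)
        have hx1 := hx.1
        have hs : 0 < sq x := by linarith
        refine mul_le_mul_of_nonneg_right ?_ (sq_nonneg _)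
        have h1 : η (sq x) ^ 2 / sq x ≤ 2 / r := by
          rw [div_le_div_iff₀ hs hr]
          have h2 := hη1 (sq x)
          have h3 : η (sq x) ^ 2 ≤ 1 := by nlinarith [h2.1, h2.2]
          nlinarith
        have h2 : sq x * deriv η (sq x) ^ 2 ≤ 2 * C ^ 2 / r := by
          have h3 : deriv η (sq x) ^ 2 ≤ (C / sq x) ^ 2 := by
            rw [← sq_abs (deriv η (sq x))]
            exact pow_le_pow_left₀ (abs_nonneg _) (hη3 _ hs) 2
          calc sq x * deriv η (sq x) ^ 2 ≤ sq x * (C / sq x) ^ 2 :=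
                mul_le_mul_of_nonneg_left h3 hs.le
            _ = C ^ 2 / sq x := by
                field_simp
            _ ≤ 2 * C ^ 2 / r := by
                rw [div_le_div_iff₀ hs hr]
                nlinarith [sq_nonneg C]
        calc η (sq x) ^ 2 / sq x + sq x * deriv η (sq x) ^ 2 ≤ 2 / r + 2 * C ^ 2 / r :=
              add_le_add h1 h2
          _ = (2 + 2 * C ^ 2) / r := by ring
    · intro x hx
      have h1 : sq x ∉ Icc (r / 2) (4 * r) := fun h => hx ⟨h.1, h.2⟩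
      rw [hη.supp _ h1, Ann_deriv hη _ h1]
      simp
  calc ∫ x in {x : Fin n → ℝ | r ≤ sq x ∧ sq x ≤ 2 * r}, gr u x ≤
        (2 * (n : ℝ) ^ 2 + 32) *
          ∫ x, (η (sq x) ^ 2 / sq x + sq x * deriv η (sq x) ^ 2) * u x ^ 2 := hL.trans hmain
    _ ≤ (2 * (n : ℝ) ^ 2 + 32) * ((2 + 2 * C ^ 2) / r *
          ∫ x in {x : Fin n → ℝ | r / 2 ≤ sq x ∧ sq x ≤ 4 * r}, u x ^ 2) :=
        mul_le_mul_of_nonneg_left hR (by positivity)
    _ = _ := by ring

theorem volA (n : ℕ) : ∃ C : ℝ, 0 < C ∧ ∀ (u : (Fin n → ℝ) → ℝ), Continuous u → ∀ r D : ℝ, 0 < r →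
    0 ≤ D → (∀ x, r / 2 ≤ sq x → sq x ≤ 4 * r → u x ^ 2 ≤ D) →
    ∫ x in {x : Fin n → ℝ | r / 2 ≤ sq x ∧ sq x ≤ 4 * r}, u x ^ 2 ≤ C * D * r ^ ((n : ℝ) / 2) := by
  refine ⟨4 ^ n, by positivity, fun u hu r D hr hD hb => ?_⟩
  have hcomp := Ann_compact (n := n) (r / 2) r hr
  have h1 : ∫ x in {x : Fin n → ℝ | r / 2 ≤ sq x ∧ sq x ≤ 4 * r}, u x ^ 2 ≤
      ∫ _ in {x : Fin n → ℝ | r / 2 ≤ sq x ∧ sq x ≤ 4 * r}, D := by
    refine setIntegral_mono_on ?_ ?_ hcomp.measurableSet fun x hx => hb x hx.1 hx.2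
    · exact (by fun_prop : Continuous fun x => u x ^ 2).continuousOn.integrableOn_compact hcomp
    · exact continuous_const.continuousOn.integrableOn_compact hcomp
  have h2 : (volume {x : Fin n → ℝ | r / 2 ≤ sq x ∧ sq x ≤ 4 * r}).toReal ≤
      4 ^ n * r ^ ((n : ℝ) / 2) := by
    have h3 : (volume {x : Fin n → ℝ | r / 2 ≤ sq x ∧ sq x ≤ 4 * r}).toReal ≤
        (volume (Icc (fun _ : Fin n => -(2 * Real.sqrt r)) (fun _ => 2 * Real.sqrt r))).toReal :=
      ENNReal.toReal_mono isCompact_Icc.measure_lt_top.ne (measure_mono (Ann_sub (r / 2) r hr))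
    refine h3.trans (le_of_eq ?_)
    rw [Real.volume_Icc_pi_toReal (by intro i; simp only; have := Real.sqrt_nonneg r; linarith)]
    rw [Finset.prod_const, Finset.card_univ, Fintype.card_fin]
    have h4 : 2 * Real.sqrt r - -(2 * Real.sqrt r) = 4 * Real.sqrt r := by ring
    rw [h4, mul_pow]
    congr 1
    rw [Real.sqrt_eq_rpow, ← Real.rpow_natCast, ← Real.rpow_mul hr.le]
    congr 1
    ring
  rw [setIntegral_const, smul_eq_mul] at h1
  have h5 : (volume.real {x : Fin n → ℝ | r / 2 ≤ sq x ∧ sq x ≤ 4 * r}) =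
      (volume {x : Fin n → ℝ | r / 2 ≤ sq x ∧ sq x ≤ 4 * r}).toReal := rfl
  rw [h5] at h1
  calc _ ≤ _ := h1
    _ ≤ (4 ^ n * r ^ ((n : ℝ) / 2)) * D := mul_le_mul_of_nonneg_right h2 hD
    _ = _ := by ring

end Vale.Agent.P225
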