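import Vale.Agent.Lib.P225R.IdI

/-!
# P225R Cacc: Caccioppoli inequality

`energy` with `g = η²`, the PDE, `(Eu)² ≤ s |∇u|²` (Cauchy-Schwarz), `|s B| ≤ n`:
`η² B u Eu ≤ (1/4) η² |∇u|² + n² η² u²/s`, `4 η η' u Eu ≤ (1/4) η² |∇u|² + 16 s η'² u²`.
-/

namespace Vale.Agent.P225

open Set MeasureTheory Filter Vale.Agent.P222
open scoped Topology ContDiff ENNReal

variable {n : ℕ} {u : (Fin n → ℝ) → ℝ} {a b : ℝ}

theorem eu_sq_le (u : (Fin n → ℝ) → ℝ) (x : Fin n → ℝ) : eu u x ^ 2 ≤ sq x * gr u x := by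
  unfold eu sq gr
  exact Finset.sum_mul_sq_le_sq_mul_sq _ _ _

private lemma Cacc_continuous_sq : Continuous (sq : (Fin n → ℝ) → ℝ) := by
  unfold sq
  fun_prop

private lemma Cacc_sq_nonneg (x : Fin n → ℝ) : 0 ≤ sq x := by
  unfold sq
  positivity

private lemma Cacc_int {f : (Fin n → ℝ) → ℝ} (hf : Continuous f) {b : ℝ}
    (h0 : ∀ x, b < sq x → f x = 0) : Integrable f := by
  refine hf.integrable_of_hasCompactSupport
    (HasCompactSupport.intro (isCompact_closedBall (0 : Fin n → ℝ) (|b| + 1)) ?_)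
  intro x hx
  apply h0
  have h1 : ¬ ‖x‖ ≤ |b| + 1 := by simpa using hx
  rw [pi_norm_le_iff_of_nonneg (by positivity)] at h1
  push Not at h1
  obtain ⟨i, hi⟩ := h1
  have h2 : x i ^ 2 ≤ sq x := by
    unfold sq
    exact Finset.single_le_sum (f := fun i => x i ^ 2) (fun j _ => sq_nonneg (x j))
      (Finset.mem_univ i)
  have h3 : (|b| + 1) ^ 2 ≤ x i ^ 2 := by
    rw [Real.norm_eq_abs] at hi
    calc (|b| + 1) ^ 2 ≤ |x i| ^ 2 := by
          have := abs_nonneg b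
          exact pow_le_pow_left₀ (by positivity) hi.le 2
      _ = x i ^ 2 := sq_abs _
  have h4 : b ≤ |b| := le_abs_self b
  have h5 : 0 ≤ |b| := abs_nonneg b
  nlinarith

private lemma Cacc_cut_sq {η : ℝ → ℝ} (hη : Cut a b η) : Cut a b (fun s => η s ^ 2) where
  a0 := hη.a0
  s := hη.s.pow 2
  supp := fun s hs => by simp [hη.supp s hs]

private lemma Cacc_deriv_sq {η : ℝ → ℝ} (hη : Cut a b η) (s : ℝ) :
    deriv (fun s => η s ^ 2) s = 2 * η s * deriv η s := by
  have h : DifferentiableAt ℝ η s := (hη.s.differentiable (by simp)) s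
  have h1 := (h.hasDerivAt.pow 2).deriv
  have e : (fun s => η s ^ 2) = η ^ 2 := rfl
  rw [e]
  simpa using h1

private lemma Cacc_deriv_supp {η : ℝ → ℝ} (hη : Cut a b η) {s : ℝ} (hs : b < s) :
    deriv η s = 0 := by
  have h : η =ᶠ[𝓝 s] fun _ => (0 : ℝ) := by
    filter_upwards [lt_mem_nhds hs] with t ht
    exact hη.supp t (fun h => absurd h.2 (not_le.2 ht))
  rw [h.deriv_eq]
  simp

private lemma Cacc_alg {N s B e u G h k : ℝ} (hs : 0 < s) (hB : |s * B| ≤ N)
    (he : e ^ 2 ≤ s * G) :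
    h ^ 2 * G ≤ 2 * ((h ^ 2 * G + 2 * (2 * h * k) * u * e) + h ^ 2 * (-(B * e)) * u) +
      (2 * N ^ 2 + 32) * ((h ^ 2 / s + s * k ^ 2) * u ^ 2) := by
  have hβ : (s * B) ^ 2 ≤ N ^ 2 := by
    rw [← sq_abs (s * B)]
    exact pow_le_pow_left₀ (abs_nonneg _) hB 2
  have h1 : 0 ≤ h ^ 2 * (s * G - e ^ 2) := mul_nonneg (sq_nonneg h) (by linarith)
  have h2 : 0 ≤ (N ^ 2 - (s * B) ^ 2) * (h * u) ^ 2 := mul_nonneg (by linarith) (sq_nonneg _)
  have h3 : 0 ≤ N ^ 2 * (s * k * u) ^ 2 := by positivity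
  have h4 : s * (h ^ 2 / s) = h ^ 2 := by field_simp
  have key : 0 ≤ s * (2 * ((h ^ 2 * G + 2 * (2 * h * k) * u * e) + h ^ 2 * (-(B * e)) * u) +
      (2 * N ^ 2 + 32) * ((h ^ 2 / s + s * k ^ 2) * u ^ 2) - h ^ 2 * G) := by
    have e1 : s * (2 * ((h ^ 2 * G + 2 * (2 * h * k) * u * e) + h ^ 2 * (-(B * e)) * u) +
        (2 * N ^ 2 + 32) * ((h ^ 2 / s + s * k ^ 2) * u ^ 2) - h ^ 2 * G) =
        h ^ 2 * (s * G - e ^ 2) + (1 / 2) * (h * e + 8 * (s * k * u)) ^ 2 +
        (1 / 2) * (h * e - 2 * (s * B) * (h * u)) ^ 2 +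
        2 * ((N ^ 2 - (s * B) ^ 2) * (h * u) ^ 2) + 32 * (h * u) ^ 2 +
        2 * (N ^ 2 * (s * k * u) ^ 2) := by
      have e2 : s * ((h ^ 2 / s + s * k ^ 2) * u ^ 2) = (h ^ 2 + s ^ 2 * k ^ 2) * u ^ 2 := by
        calc s * ((h ^ 2 / s + s * k ^ 2) * u ^ 2) = (s * (h ^ 2 / s) + s ^ 2 * k ^ 2) * u ^ 2 := by
              ring
          _ = _ := by rw [h4]
      calc s * (2 * ((h ^ 2 * G + 2 * (2 * h * k) * u * e) + h ^ 2 * (-(B * e)) * u) +
          (2 * N ^ 2 + 32) * ((h ^ 2 / s + s * k ^ 2) * u ^ 2) - h ^ 2 * G) =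
          s * (2 * ((h ^ 2 * G + 2 * (2 * h * k) * u * e) + h ^ 2 * (-(B * e)) * u) - h ^ 2 * G) +
          (2 * N ^ 2 + 32) * (s * ((h ^ 2 / s + s * k ^ 2) * u ^ 2)) := by ring
        _ = _ := by rw [e2]; ring
    rw [e1]
    have h5 : 0 ≤ (h * e + 8 * (s * k * u)) ^ 2 := sq_nonneg _
    have h6 : 0 ≤ (h * e - 2 * (s * B) * (h * u)) ^ 2 := sq_nonneg _
    have h7 : 0 ≤ (h * u) ^ 2 := sq_nonneg _
    linarith
  have := nonneg_of_mul_nonneg_right key hs
  linarith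

theorem cacc {B : ℝ → ℝ} (hB : Cb n B) (hn : 2 ≤ n) (hu : ContDiff ℝ ∞ u) (hp : Pde B u)
    {η : ℝ → ℝ} (hη : Cut a b η) :
    ∫ x, η (sq x) ^ 2 * gr u x ≤
      (2 * (n : ℝ) ^ 2 + 32) * ∫ x, (η (sq x) ^ 2 / sq x + sq x * deriv η (sq x) ^ 2) * u x ^ 2 := by
  have csq := Cacc_continuous_sq (n := n)
  have cη : Continuous fun x : Fin n → ℝ => η (sq x) := hη.s.continuous.comp csq
  have cη' : Continuous fun x : Fin n → ℝ => deriv η (sq x) :=
    (hη.s.continuous_deriv (by simp)).comp csq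
  have cu : Continuous u := hu.continuous
  have cp : ∀ i, Continuous (pder i u) := fun i => (contDiff_pder hu i).continuous
  have cpp : ∀ i, Continuous (pder i (pder i u)) := fun i =>
    (contDiff_pder (contDiff_pder hu i) i).continuous
  have cgr : Continuous (gr u) := by
    unfold gr
    fun_prop
  have ceu : Continuous (eu u) := by
    unfold eu
    fun_prop
  have cL : Continuous fun x => ∑ i, pder i (pder i u) x := by fun_prop
  have η0 : ∀ x : Fin n → ℝ, b < sq x → η (sq x) = 0 := fun x hx =>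
    hη.supp _ (fun h => absurd h.2 (not_le.2 hx))
  have η0' : ∀ x : Fin n → ℝ, b < sq x → deriv η (sq x) = 0 := fun x hx => Cacc_deriv_supp hη hx
  -- integrability
  have iG : Integrable fun x => η (sq x) ^ 2 * gr u x :=
    Cacc_int ((cη.pow 2).mul cgr) (b := b) (fun x hx => by simp [η0 x hx])
  have iE : Integrable fun x => 2 * (2 * η (sq x) * deriv η (sq x)) * u x * eu u x :=
    Cacc_int (((continuous_const.mul ((continuous_const.mul cη).mul cη')).mul cu).mul ceu)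
      (b := b) (fun x hx => by simp [η0 x hx])
  have iL : Integrable fun x => η (sq x) ^ 2 * (∑ i, pder i (pder i u) x) * u x :=
    Cacc_int (((cη.pow 2).mul cL).mul cu) (b := b) (fun x hx => by simp [η0 x hx])
  have iAB : Integrable fun x => η (sq x) ^ 2 * gr u x +
      2 * (2 * η (sq x) * deriv η (sq x)) * u x * eu u x := iG.add iE
  have iABC : Integrable fun x => (η (sq x) ^ 2 * gr u x +
      2 * (2 * η (sq x) * deriv η (sq x)) * u x * eu u x) +
      η (sq x) ^ 2 * (∑ i, pder i (pder i u) x) * u x := iAB.add iL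
  have i2 : Integrable fun x => 2 * ((η (sq x) ^ 2 * gr u x +
      2 * (2 * η (sq x) * deriv η (sq x)) * u x * eu u x) +
      η (sq x) ^ 2 * (∑ i, pder i (pder i u) x) * u x) := iABC.const_mul 2
  have hmax : ∀ x : Fin n → ℝ, η (sq x) ^ 2 / sq x = η (sq x) ^ 2 / max (sq x) a := by
    intro x
    by_cases h : sq x ∈ Icc a b
    · rw [max_eq_left h.1]
    · simp [hη.supp _ h]
  have iW : Integrable fun x => (η (sq x) ^ 2 / sq x + sq x * deriv η (sq x) ^ 2) * u x ^ 2 := by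
    simp_rw [hmax]
    refine Cacc_int ?_ (b := b) (fun x hx => by simp [η0 x hx, η0' x hx])
    have c1 : Continuous fun x : Fin n → ℝ => η (sq x) ^ 2 / max (sq x) a :=
      (cη.pow 2).div (csq.max continuous_const) (fun x => (lt_max_of_lt_right hη.a0).ne')
    exact (c1.add (csq.mul (cη'.pow 2))).mul (cu.pow 2)
  have i3 : Integrable fun x => (2 * (n : ℝ) ^ 2 + 32) *
      ((η (sq x) ^ 2 / sq x + sq x * deriv η (sq x) ^ 2) * u x ^ 2) := iW.const_mul _
  -- the identity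
  have hE := energy hu (Cacc_cut_sq hη)
  simp only [Cacc_deriv_sq hη] at hE
  -- pointwise inequality
  have hn' : (2 : ℝ) ≤ n := by exact_mod_cast hn
  have hpt : ∀ x, η (sq x) ^ 2 * gr u x ≤
      2 * ((η (sq x) ^ 2 * gr u x + 2 * (2 * η (sq x) * deriv η (sq x)) * u x * eu u x) +
        η (sq x) ^ 2 * (∑ i, pder i (pder i u) x) * u x) +
      (2 * (n : ℝ) ^ 2 + 32) * ((η (sq x) ^ 2 / sq x + sq x * deriv η (sq x) ^ 2) * u x ^ 2) := by
    intro x
    by_cases h : sq x ∈ Icc a b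
    · have hs : 0 < sq x := lt_of_lt_of_le hη.a0 h.1
      have hb : |sq x * B (sq x)| ≤ n := by
        have h1 := hB.low (sq x) hs.le
        have h2 := hB.up (sq x) hs.le
        rw [abs_le]
        constructor <;> linarith
      have hL : ∑ i, pder i (pder i u) x = -(B (sq x) * eu u x) := by
        have := hp x
        linarith
      rw [hL]
      exact Cacc_alg hs hb (eu_sq_le u x)
    · have h0 : η (sq x) = 0 := hη.supp _ h
      have hs : 0 ≤ sq x := Cacc_sq_nonneg x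
      rw [h0]
      have : 0 ≤ (2 * (n : ℝ) ^ 2 + 32) * ((0 ^ 2 / sq x + sq x * deriv η (sq x) ^ 2) * u x ^ 2) := by
        positivity
      simpa using this
  have hmono := integral_mono iG (i2.add i3) hpt
  have hR : ∫ x, (2 * ((η (sq x) ^ 2 * gr u x + 2 * (2 * η (sq x) * deriv η (sq x)) * u x * eu u x) +
        η (sq x) ^ 2 * (∑ i, pder i (pder i u) x) * u x) +
      (2 * (n : ℝ) ^ 2 + 32) * ((η (sq x) ^ 2 / sq x + sq x * deriv η (sq x) ^ 2) * u x ^ 2)) =
      (2 * (n : ℝ) ^ 2 + 32) *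
        ∫ x, (η (sq x) ^ 2 / sq x + sq x * deriv η (sq x) ^ 2) * u x ^ 2 := by
    rw [integral_add i2 i3, integral_const_mul, integral_const_mul, integral_add iAB iL, hE]
    ring
  calc ∫ x, η (sq x) ^ 2 * gr u x ≤ _ := hmono
    _ = _ := hR

end Vale.Agent.P225
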