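import Vale.Agent.Lib.P225R.Defs

/-!
# P225R Compl: distances and completeness

`dist_le`: the straight curve `t ↦ t x` has length `|x| ∫₀¹ √F(t²|x|²) dt`, and `F` is nonincreasing on `[0, ∞)` since
`s F'/F = L ≤ 0`. `compl_low`: if `L(s₀) < -1`, then `L ≤ -1-δ` on `[s₀, ∞)`, so `F(s) ≤ C s^(-1-δ)` there
and `∫₀^∞ √F(ρ²) dρ < ∞`: all points have distance `≤ R` from `0`, contradicting `IsCompl` (`ℝ^n` is unbounded, `n ≥ 1`).
-/

namespace Vale.Agent.P225

open Set MeasureTheory Filter Vale.Agent.P222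
open scoped Topology ContDiff ENNReal

variable {n : ℕ} {F : ℝ → ℝ}

private theorem Compl_cd (hF : ContDiff ℝ ∞ F) (hpos : ∀ s, 0 < F s) :
    Differentiable ℝ (fun s => s * (deriv F s / F s)) := by
  have h1 : ContDiff ℝ ∞ (deriv F) := (contDiff_infty_iff_deriv.1 hF).2
  have h3 : Differentiable ℝ (deriv F) := h1.differentiable (by simp)
  have h4 : Differentiable ℝ F := hF.differentiable (by simp)
  exact differentiable_id.mul (h3.div h4 fun s => (hpos s).ne')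

private theorem Compl_anti (hF : ContDiff ℝ ∞ F) (hpos : ∀ s, 0 < F s)
    (hm : ∀ s, 0 < s → deriv (fun s => s * (deriv F s / F s)) s ≤ 0) :
    AntitoneOn (fun s => s * (deriv F s / F s)) (Ici 0) := by
  refine antitoneOn_of_deriv_nonpos (convex_Ici 0) (Compl_cd hF hpos).continuous.continuousOn
    (Compl_cd hF hpos).differentiableOn fun s hs => ?_
  rw [interior_Ici] at hs
  exact hm s hs

theorem L_nonpos (hF : ContDiff ℝ ∞ F) (hpos : ∀ s, 0 < F s)
    (hm : ∀ s, 0 < s → deriv (fun s => s * (deriv F s / F s)) s ≤ 0) (s : ℝ) (hs : 0 ≤ s) :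
    s * (deriv F s / F s) ≤ 0 := by
  have h1 := Compl_anti hF hpos hm (mem_Ici.2 (le_refl (0 : ℝ))) hs hs
  simpa using h1

theorem gdist_le (hF : ContDiff ℝ ∞ F) (hpos : ∀ s, 0 < F s) (x : Fin n → ℝ) :
    gdist (conf F) 0 x ≤ ENNReal.ofReal (√(sq x) * ∫ t in (0 : ℝ)..1, √(F (t ^ 2 * sq x))) := by
  have hder : ∀ t : ℝ, deriv (fun t : ℝ => t • x) t = x := by
    intro t
    have h1 := ((hasDerivAt_id t).smul_const x).deriv
    rw [one_smul] at h1
    exact h1
  have hlen : len (conf F) (fun t : ℝ => t • x) =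
      √(sq x) * ∫ t in (0 : ℝ)..1, √(F (t ^ 2 * sq x)) := by
    unfold len
    rw [← intervalIntegral.integral_const_mul]
    refine intervalIntegral.integral_congr fun t _ => ?_
    simp only
    rw [hder t]
    have h1 : ∑ i, (t • x) i ^ 2 = t ^ 2 * sq x := by
      unfold sq
      rw [Finset.mul_sum]
      refine Finset.sum_congr rfl fun i _ => ?_
      rw [Pi.smul_apply, smul_eq_mul, mul_pow]
    have h2 : dotProduct x ((conf F (t • x)).mulVec x) = sq x * F (t ^ 2 * sq x) := by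
      unfold conf
      rw [h1, Matrix.smul_mulVec, Matrix.one_mulVec, dotProduct_smul, smul_eq_mul, mul_comm]
      congr 1
      unfold sq dotProduct
      exact Finset.sum_congr rfl fun i _ => by ring
    have hsq : 0 ≤ sq x := Finset.sum_nonneg fun i _ => sq_nonneg _
    rw [h2, Real.sqrt_mul hsq]
  rw [← hlen]
  unfold gdist
  refine iInf₂_le (fun t : ℝ => t • x) ?_
  refine ⟨contDiff_id.smul contDiff_const, ?_, ?_⟩
  · simp
  · simp

private theorem Compl_F_anti (hF : ContDiff ℝ ∞ F) (hpos : ∀ s, 0 < F s)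
    (hL : ∀ s, 0 ≤ s → s * (deriv F s / F s) ≤ 0) (s : ℝ) (hs : 0 ≤ s) : F s ≤ F 0 := by
  have h4 : Differentiable ℝ F := hF.differentiable (by simp)
  have h1 : AntitoneOn F (Ici 0) := by
    refine antitoneOn_of_deriv_nonpos (convex_Ici 0) h4.continuous.continuousOn
      h4.differentiableOn fun s hs => ?_
    rw [interior_Ici] at hs
    have hs' : 0 < s := hs
    have h2 := hL s hs'.le
    by_contra h3
    rw [not_le] at h3
    have h5 : 0 < s * (deriv F s / F s) := mul_pos hs' (div_pos h3 (hpos s))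
    linarith
  exact h1 (mem_Ici.2 (le_refl (0 : ℝ))) hs hs

theorem dist_le (hF : ContDiff ℝ ∞ F) (hpos : ∀ s, 0 < F s)
    (hL : ∀ s, 0 ≤ s → s * (deriv F s / F s) ≤ 0) (x : Fin n → ℝ) :
    (gdist (conf F) 0 x).toReal ≤ √(F 0) * √(sq x) := by
  refine ENNReal.toReal_le_of_le_ofReal (by positivity) ((gdist_le hF hpos x).trans ?_)
  refine ENNReal.ofReal_le_ofReal ?_
  have hsq : 0 ≤ sq x := Finset.sum_nonneg fun i _ => sq_nonneg _
  have h1 : ∫ t in (0 : ℝ)..1, √(F (t ^ 2 * sq x)) ≤ √(F 0) := by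
    have hc : Continuous fun t : ℝ => √(F (t ^ 2 * sq x)) :=
      Real.continuous_sqrt.comp (hF.continuous.comp (by fun_prop))
    calc ∫ t in (0 : ℝ)..1, √(F (t ^ 2 * sq x)) ≤ ∫ t in (0 : ℝ)..1, √(F 0) := by
          refine intervalIntegral.integral_mono_on zero_le_one (hc.intervalIntegrable _ _)
            (continuous_const.intervalIntegrable _ _) fun t _ => ?_
          exact Real.sqrt_le_sqrt (Compl_F_anti hF hpos hL _ (by positivity))
      _ = √(F 0) := by simp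
  rw [mul_comm (√(F 0))]
  exact mul_le_mul_of_nonneg_left h1 (Real.sqrt_nonneg _)

/-- decay of `F` -/
private theorem Compl_decay (hF : ContDiff ℝ ∞ F) (hpos : ∀ s, 0 < F s) {a s₀ : ℝ} (hs₀ : 0 < s₀)
    (hL : ∀ s, s₀ ≤ s → s * (deriv F s / F s) ≤ -a) (s : ℝ) (hs : s₀ ≤ s) :
    F s * s ^ a ≤ F s₀ * s₀ ^ a := by
  have h4 : Differentiable ℝ F := hF.differentiable (by simp)
  have hder : ∀ s : ℝ, 0 < s → HasDerivAt (fun s => F s * s ^ a)
      (deriv F s * s ^ a + F s * (a * s ^ (a - 1))) s := fun s hs =>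
    (h4 s).hasDerivAt.mul (Real.hasDerivAt_rpow_const (Or.inl hs.ne'))
  have h1 : AntitoneOn (fun s => F s * s ^ a) (Ici s₀) := by
    refine antitoneOn_of_deriv_nonpos (convex_Ici s₀) (fun s hs => ?_) (fun s hs => ?_)
      fun s hs => ?_
    · exact (hder s (hs₀.trans_le hs)).continuousAt.continuousWithinAt
    · rw [interior_Ici] at hs
      exact (hder s (hs₀.trans hs)).differentiableAt.differentiableWithinAt
    · rw [interior_Ici] at hs
      have hs0 : 0 < s := hs₀.trans hs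
      rw [(hder s hs0).deriv]
      have h2 := hL s (le_of_lt hs)
      have h3 : s ^ (a - 1) = s ^ a / s := Real.rpow_sub_one hs0.ne' a
      have h5 : s * deriv F s ≤ -a * F s := by
        have h6 : s * (deriv F s / F s) = (s * deriv F s) / F s := by ring
        rw [h6, div_le_iff₀ (hpos s)] at h2
        exact h2
      have h7 : deriv F s * s ^ a + F s * (a * s ^ (a - 1)) =
          s ^ a / s * (s * deriv F s + a * F s) := by
        rw [h3]
        field_simp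
      rw [h7]
      have h8 : 0 < s ^ a := Real.rpow_pos_of_pos hs0 a
      exact mul_nonpos_of_nonneg_of_nonpos (by positivity) (by linarith)
  exact h1 (mem_Ici.2 le_rfl) hs hs

/-- `√F(τ²) ≤ K (1 + τ)^(-a)` -/
private theorem Compl_bound (hF : ContDiff ℝ ∞ F) (hpos : ∀ s, 0 < F s) {a s₀ : ℝ} (hs₀ : 0 < s₀)
    (ha : 1 < a) (hL : ∀ s, s₀ ≤ s → s * (deriv F s / F s) ≤ -a)
    (hL0 : ∀ s, 0 ≤ s → s * (deriv F s / F s) ≤ 0) :
    ∃ K : ℝ, 0 ≤ K ∧ ∀ τ : ℝ, 0 ≤ τ → √(F (τ ^ 2)) ≤ K * (1 + τ) ^ (-a) := by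
  set τ₀ : ℝ := max 1 (√s₀) with hτ₀
  have hτ1 : 1 ≤ τ₀ := le_max_left _ _
  have hτs : √s₀ ≤ τ₀ := le_max_right _ _
  refine ⟨√(F 0) * (1 + τ₀) ^ a + √(F s₀ * s₀ ^ a) * 2 ^ a, by positivity, fun τ hτ => ?_⟩
  have h1τ : 0 < 1 + τ := by linarith
  have hpa : 0 < (1 + τ) ^ a := Real.rpow_pos_of_pos h1τ a
  rw [Real.rpow_neg h1τ.le, ← div_eq_mul_inv, le_div_iff₀ hpa]
  rcases le_total τ τ₀ with h | h
  · have h2 : √(F (τ ^ 2)) ≤ √(F 0) :=
      Real.sqrt_le_sqrt (Compl_F_anti hF hpos hL0 _ (by positivity))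
    have h3 : (1 + τ) ^ a ≤ (1 + τ₀) ^ a :=
      Real.rpow_le_rpow h1τ.le (by linarith) (by linarith)
    have h4 : √(F (τ ^ 2)) * (1 + τ) ^ a ≤ √(F 0) * (1 + τ₀) ^ a :=
      mul_le_mul h2 h3 hpa.le (Real.sqrt_nonneg _)
    have h5 : 0 ≤ √(F s₀ * s₀ ^ a) * 2 ^ a := by positivity
    linarith
  · have hτ0 : 0 < τ := by linarith
    have hs : s₀ ≤ τ ^ 2 := by
      have h2 : √s₀ ≤ τ := hτs.trans h
      calc s₀ = √s₀ ^ 2 := (Real.sq_sqrt hs₀.le).symm
        _ ≤ τ ^ 2 := pow_le_pow_left₀ (Real.sqrt_nonneg _) h2 2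
    have h2 := Compl_decay hF hpos hs₀ hL (τ ^ 2) hs
    have h3 : (τ ^ 2) ^ a = (τ ^ a) ^ 2 := by
      rw [← Real.rpow_natCast τ 2, ← Real.rpow_mul hτ0.le, mul_comm, Real.rpow_mul hτ0.le,
        Real.rpow_natCast]
    rw [h3] at h2
    have hta : 0 < τ ^ a := Real.rpow_pos_of_pos hτ0 a
    have h4 : √(F (τ ^ 2)) * τ ^ a ≤ √(F s₀ * s₀ ^ a) := by
      have h5 : √(F (τ ^ 2)) * τ ^ a = √(F (τ ^ 2) * (τ ^ a) ^ 2) := by
        rw [Real.sqrt_mul (hpos _).le, Real.sqrt_sq hta.le]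
      rw [h5]
      exact Real.sqrt_le_sqrt h2
    have h6 : (1 + τ) ^ a ≤ 2 ^ a * τ ^ a := by
      rw [← Real.mul_rpow (by norm_num) hτ0.le]
      exact Real.rpow_le_rpow h1τ.le (by linarith) (by linarith)
    have h7 : √(F (τ ^ 2)) * (1 + τ) ^ a ≤ √(F s₀ * s₀ ^ a) * 2 ^ a := by
      calc √(F (τ ^ 2)) * (1 + τ) ^ a ≤ √(F (τ ^ 2)) * (2 ^ a * τ ^ a) :=
            mul_le_mul_of_nonneg_left h6 (Real.sqrt_nonneg _)
        _ = (√(F (τ ^ 2)) * τ ^ a) * 2 ^ a := by ring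
        _ ≤ _ := mul_le_mul_of_nonneg_right h4 (by positivity)
    have h8 : 0 ≤ √(F 0) * (1 + τ₀) ^ a := by positivity
    linarith

private theorem Compl_int (hF : ContDiff ℝ ∞ F) (_hpos : ∀ s, 0 < F s) {a K : ℝ} (ha : 1 < a)
    (hK : ∀ τ : ℝ, 0 ≤ τ → √(F (τ ^ 2)) ≤ K * (1 + τ) ^ (-a)) (ρ : ℝ) (hρ : 0 ≤ ρ) :
    ρ * ∫ t in (0 : ℝ)..1, √(F (t ^ 2 * ρ ^ 2)) ≤ K / (a - 1) := by
  have hK0 : 0 ≤ K := by
    have h1 := hK 0 le_rfl
    rw [add_zero, Real.one_rpow, mul_one] at h1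
    exact (Real.sqrt_nonneg _).trans h1
  have hc : Continuous fun t : ℝ => √(F (t ^ 2 * ρ ^ 2)) :=
    Real.continuous_sqrt.comp (hF.continuous.comp (by fun_prop))
  have hder : ∀ t ∈ uIcc (0 : ℝ) 1, HasDerivAt (fun t : ℝ => -(K / (a - 1)) * (1 + t * ρ) ^ (1 - a))
      (ρ * (K * (1 + t * ρ) ^ (-a))) t := by
    intro t ht
    rw [uIcc_of_le zero_le_one] at ht
    have h1 : 0 < 1 + t * ρ := by nlinarith [ht.1]
    have h2 : HasDerivAt (fun t : ℝ => 1 + t * ρ) ρ t := by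
      have := ((hasDerivAt_id t).mul_const ρ).const_add 1
      rwa [one_mul] at this
    have h3 := (h2.rpow_const (p := 1 - a) (Or.inl h1.ne')).const_mul (-(K / (a - 1)))
    refine h3.congr_deriv ?_
    have h4 : a - 1 ≠ 0 := by linarith
    rw [show 1 - a - 1 = -a by ring]
    field_simp
    ring
  have hcc : ContinuousOn (fun t : ℝ => ρ * (K * (1 + t * ρ) ^ (-a))) (uIcc 0 1) := by
    intro t ht
    rw [uIcc_of_le zero_le_one] at ht
    have h1 : 0 < 1 + t * ρ := by nlinarith [ht.1]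
    have h2 : ContinuousAt (fun t : ℝ => (1 + t * ρ) ^ (-a)) t :=
      ContinuousAt.rpow_const (by fun_prop) (Or.inl h1.ne')
    exact (continuousAt_const.mul (continuousAt_const.mul h2)).continuousWithinAt
  have hint := intervalIntegral.integral_eq_sub_of_hasDerivAt hder hcc.intervalIntegrable
  rw [← intervalIntegral.integral_const_mul]
  calc ∫ t in (0 : ℝ)..1, ρ * √(F (t ^ 2 * ρ ^ 2))
      ≤ ∫ t in (0 : ℝ)..1, ρ * (K * (1 + t * ρ) ^ (-a)) := by
        refine intervalIntegral.integral_mono_on zero_le_one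
          ((continuous_const.mul hc).intervalIntegrable _ _) hcc.intervalIntegrable fun t ht => ?_
        refine mul_le_mul_of_nonneg_left ?_ hρ
        have h1 := hK (t * ρ) (mul_nonneg ht.1 hρ)
        rwa [mul_pow] at h1
    _ = -(K / (a - 1)) * (1 + 1 * ρ) ^ (1 - a) - -(K / (a - 1)) * (1 + 0 * ρ) ^ (1 - a) := hint
    _ ≤ K / (a - 1) := by
        rw [zero_mul, add_zero, Real.one_rpow]
        have h1 : 0 ≤ (1 + 1 * ρ) ^ (1 - a) := Real.rpow_nonneg (by linarith) _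
        have h2 : 0 ≤ K / (a - 1) := div_nonneg hK0 (by linarith)
        nlinarith [mul_nonneg h2 h1]

theorem compl_low (hn : 1 ≤ n) (hF : ContDiff ℝ ∞ F) (hpos : ∀ s, 0 < F s)
    (hm : ∀ s, 0 < s → deriv (fun s => s * (deriv F s / F s)) s ≤ 0)
    (hc : IsCompl (conf (n := n) F)) (s : ℝ) (hs : 0 ≤ s) : -1 ≤ s * (deriv F s / F s) := by
  by_contra hcon
  rw [not_le] at hcon
  set a : ℝ := -(s * (deriv F s / F s)) with ha
  have ha1 : 1 < a := by linarith
  have hs0 : 0 < s := by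
    rcases hs.lt_or_eq with h | h
    · exact h
    · exfalso
      rw [← h, zero_mul] at hcon
      linarith
  have hL : ∀ t, s ≤ t → t * (deriv F t / F t) ≤ -a := fun t ht => by
    have h1 := Compl_anti hF hpos hm (mem_Ici.2 hs) (mem_Ici.2 (hs.trans ht)) ht
    have h2 : t * (deriv F t / F t) ≤ s * (deriv F s / F s) := h1
    rw [ha, neg_neg]
    exact h2
  have hL0 := L_nonpos hF hpos hm
  obtain ⟨K, hK, hKb⟩ := Compl_bound hF hpos hs0 ha1 hL hL0
  -- all distances are bounded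
  have hd : ∀ x : Fin n → ℝ, gdist (conf F) 0 x ≤ ENNReal.ofReal (K / (a - 1)) := by
    intro x
    refine (gdist_le hF hpos x).trans (ENNReal.ofReal_le_ofReal ?_)
    have hsq : 0 ≤ sq x := Finset.sum_nonneg fun i _ => sq_nonneg _
    have h1 := Compl_int hF hpos ha1 hKb (√(sq x)) (Real.sqrt_nonneg _)
    rw [Real.sq_sqrt hsq] at h1
    exact h1
  have hb := hc (K / (a - 1))
  have hu : {x : Fin n → ℝ | gdist (conf F) 0 x ≤ ENNReal.ofReal (K / (a - 1))} = univ :=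
    eq_univ_of_forall hd
  rw [hu] at hb
  have : Nonempty (Fin n) := ⟨⟨0, hn⟩⟩
  exact NormedSpace.unbounded_univ ℝ (Fin n → ℝ) hb

end Vale.Agent.P225
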