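import Vale.Agent.Lib.P225R.Stmt
import Vale.Agent.Lib.P222.Sing

/-!
# P225R: definitions for the proof

The equation is `Δu + B(|x|²) x·∇u = 0` on `ℝ^n`; for the metric `F(|x|²) |dx|²` one has `B = (n - 2) F'/F`.
`s = sq x = |x|²`.
-/

namespace Vale.Agent.P225

open Set MeasureTheory Filter Vale.Agent.P222
open scoped Topology ContDiff ENNReal

noncomputable section

variable {n : ℕ}

/-- `|x|²` -/
def sq (x : Fin n → ℝ) : ℝ := ∑ i, x i ^ 2

/-- `x · ∇u` -/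
def eu (u : (Fin n → ℝ) → ℝ) (x : Fin n → ℝ) : ℝ := ∑ i, x i * pder i u x

/-- `|∇u|²` -/
def gr (u : (Fin n → ℝ) → ℝ) (x : Fin n → ℝ) : ℝ := ∑ i, pder i u x ^ 2

/-- the equation -/
def Pde (B : ℝ → ℝ) (u : (Fin n → ℝ) → ℝ) : Prop :=
  ∀ x, ∑ i, pder i (pder i u) x + B (sq x) * eu u x = 0

/-- the coefficient -/
structure Cb (n : ℕ) (B : ℝ → ℝ) : Prop where
  s : ContDiff ℝ ∞ B
  low : ∀ s, 0 ≤ s → -((n : ℝ) - 2) ≤ s * B s
  up : ∀ s, 0 ≤ s → s * B s ≤ 0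
  mono : ∀ s, 0 < s → deriv (fun s => s * B s) s ≤ 0

/-- smooth with support in `[a, b]`, `0 < a` -/
structure Cut (a b : ℝ) (g : ℝ → ℝ) : Prop where
  a0 : 0 < a
  s : ContDiff ℝ ∞ g
  supp : ∀ s, s ∉ Icc a b → g s = 0

/-- multi-index as a list -/
def mlist (α : Fin n → ℕ) : List (Fin n) :=
  (List.finRange n).flatMap fun i => List.replicate (α i) i

end

end Vale.Agent.P225
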