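import Vale.Agent.Lib.P225R.Defs

/-!
# P225R Dim: the dimension count

The linear map `u ↦ (Dl (mlist α) u 0)_α` is injective on `V` (`Dl_add`, and a scalar version). The number of
`α : Fin (m+1) → ℕ` with `∑ α ≤ k`, `α 0 = 0` is `(m + k).choose k`, with `α 0 = 1` it is `(m + k - 1).choose (k - 1)`.
-/

namespace Vale.Agent.P225

open Set MeasureTheory Filter Vale.Agent.P222
open scoped Topology ContDiff ENNReal

private def dimEquiv (m k : ℕ) :
    {β : Fin m → ℕ // ∑ i, β i ≤ k} ≃ {P : Fin (m + 1) → ℕ // ∑ i, P i = k} where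
  toFun β := ⟨Fin.cons (k - ∑ i, β.1 i) β.1, by
    rw [Fin.sum_univ_succ]
    simp only [Fin.cons_zero, Fin.cons_succ]
    have := β.2
    omega⟩
  invFun P := ⟨fun i => P.1 i.succ, by
    have := P.2
    rw [Fin.sum_univ_succ] at this
    show ∑ i : Fin m, P.1 i.succ ≤ k
    omega⟩
  left_inv β := by
    apply Subtype.ext
    funext i
    simp
  right_inv P := by
    apply Subtype.ext
    funext i
    have h := P.2
    rw [Fin.sum_univ_succ] at h
    refine Fin.cases ?_ (fun j => ?_) i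
    · simp only [Fin.cons_zero]
      omega
    · simp only [Fin.cons_succ]

theorem card_multi (m k : ℕ) :
    {β : Fin m → ℕ | ∑ i, β i ≤ k}.Finite ∧ {β : Fin m → ℕ | ∑ i, β i ≤ k}.ncard = (m + k).choose k := by
  classical
  have e : Sym (Fin (m + 1)) k ≃ {β : Fin m → ℕ // ∑ i, β i ≤ k} :=
    (Sym.equivNatSumOfFintype (Fin (m + 1)) k).trans (dimEquiv m k).symm
  have hfin : Finite {β : Fin m → ℕ // ∑ i, β i ≤ k} := Finite.of_equiv _ e
  refine ⟨hfin, ?_⟩
  rw [← Nat.card_coe_set_eq]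
  have h1 : Nat.card {β : Fin m → ℕ // ∑ i, β i ≤ k} = Nat.card (Sym (Fin (m + 1)) k) :=
    (Nat.card_congr e).symm
  have h2 : Nat.card (Sym (Fin (m + 1)) k) = (m + k).choose k := by
    rw [Nat.card_eq_fintype_card, Sym.card_sym_eq_choose, Fintype.card_fin]
    congr 1
    omega
  exact h1.trans h2

private lemma dim_pder_smul {n : ℕ} {f : (Fin n → ℝ) → ℝ} (hf : ContDiff ℝ ∞ f) (c : ℝ) (i : Fin n) :
    pder i (fun x => c * f x) = fun x => c * pder i f x := by
  funext x
  unfold pder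
  rw [fderiv_const_mul (smooth_differentiable hf x)]
  simp

private lemma dim_Dl_smul {n : ℕ} (l : List (Fin n)) (c : ℝ) : ∀ {f : (Fin n → ℝ) → ℝ}, ContDiff ℝ ∞ f →
    Dl l (fun x => c * f x) = fun x => c * Dl l f x := by
  induction l with
  | nil => intro f _; rfl
  | cons i l ih =>
    intro f hf
    show Dl l (pder i (fun x => c * f x)) = _
    rw [dim_pder_smul hf]
    exact ih (contDiff_pder hf i)

private def dimSet (m k : ℕ) : Set (Fin (m + 1) → ℕ) := {α | ∑ i, α i ≤ k ∧ α 0 ≤ 1}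

private lemma dimSet_bound {m k : ℕ} (hk : 1 ≤ k) :
    (dimSet m k).Finite ∧ (dimSet m k).ncard ≤ (m + k).choose k + (m + k - 1).choose (k - 1) := by
  classical
  obtain ⟨h1, h2⟩ := card_multi m k
  obtain ⟨h3, h4⟩ := card_multi m (k - 1)
  have hsub : dimSet m k ⊆
      (fun β : Fin m → ℕ => (Fin.cons 0 β : Fin (m + 1) → ℕ)) '' {β : Fin m → ℕ | ∑ i, β i ≤ k} ∪
      (fun β : Fin m → ℕ => (Fin.cons 1 β : Fin (m + 1) → ℕ)) '' {β : Fin m → ℕ | ∑ i, β i ≤ k - 1} := by
    intro α hα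
    obtain ⟨ha, hb⟩ := hα
    rw [Fin.sum_univ_succ] at ha
    rcases Nat.le_one_iff_eq_zero_or_eq_one.1 hb with h0 | h0
    · left
      refine ⟨fun i => α i.succ, ?_, ?_⟩
      · show ∑ i, α (Fin.succ i) ≤ k
        omega
      · funext i
        refine Fin.cases ?_ (fun j => ?_) i
        · simp [h0]
        · simp
    · right
      refine ⟨fun i => α i.succ, ?_, ?_⟩
      · show ∑ i, α (Fin.succ i) ≤ k - 1
        omega
      · funext i
        refine Fin.cases ?_ (fun j => ?_) i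
        · simp [h0]
        · simp
  have hfin := (h1.image (fun β : Fin m → ℕ => (Fin.cons 0 β : Fin (m + 1) → ℕ))).union
    (h3.image (fun β : Fin m → ℕ => (Fin.cons 1 β : Fin (m + 1) → ℕ)))
  refine ⟨hfin.subset hsub, (Set.ncard_le_ncard hsub hfin).trans ((Set.ncard_union_le _ _).trans ?_)⟩
  have h5 := Set.ncard_image_le (f := fun β : Fin m → ℕ => (Fin.cons 0 β : Fin (m + 1) → ℕ)) h1
  have h6 := Set.ncard_image_le (f := fun β : Fin m → ℕ => (Fin.cons 1 β : Fin (m + 1) → ℕ)) h3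
  rw [h2] at h5
  rw [h4] at h6
  have h7 : m + (k - 1) = m + k - 1 := by omega
  rw [h7] at h6
  exact add_le_add h5 h6

theorem dim_bound {m k : ℕ} (hk : 1 ≤ k) (V : Submodule ℝ ((Fin (m + 1) → ℝ) → ℝ))
    (hs : ∀ u ∈ V, ContDiff ℝ ∞ u)
    (hinj : ∀ u ∈ V, (∀ α : Fin (m + 1) → ℕ, ∑ i, α i ≤ k → α 0 ≤ 1 → Dl (mlist α) u 0 = 0) → u = 0) :
    FiniteDimensional ℝ V ∧
      Module.finrank ℝ V ≤ (m + k).choose k + (m + k - 1).choose (k - 1) := by
  classical
  obtain ⟨hfin, hcard⟩ := dimSet_bound (m := m) hk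
  have : Fintype (dimSet m k) := hfin.fintype
  let Φ : V →ₗ[ℝ] (dimSet m k → ℝ) :=
    { toFun := fun u α => Dl (mlist α.1) u.1 0
      map_add' := by
        intro u v
        funext α
        have h := congrFun (Dl_add (mlist α.1) (hs u.1 u.2) (hs v.1 v.2)) 0
        exact h
      map_smul' := by
        intro c u
        funext α
        have h := congrFun (dim_Dl_smul (mlist α.1) c (hs u.1 u.2)) 0
        exact h }
  have hΦ : Function.Injective Φ := by
    rw [← LinearMap.ker_eq_bot, LinearMap.ker_eq_bot']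
    intro u hu
    apply Subtype.ext
    refine hinj u.1 u.2 fun α h1 h2 => ?_
    exact congrFun hu ⟨α, h1, h2⟩
  refine ⟨FiniteDimensional.of_injective Φ hΦ, ?_⟩
  refine (LinearMap.finrank_le_finrank_of_injective hΦ).trans ?_
  rw [Module.finrank_fintype_fun_eq_card, ← Nat.card_eq_fintype_card, Nat.card_coe_set_eq]
  exact hcard

end Vale.Agent.P225
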