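import Vale.Agent.Lib.P225R.Star
import Vale.Agent.Lib.P225R.Ann

/-!
# P225R ErrR: the right side of `star` tends to zero

`κ = k + 1/2`, `q = n/2 - 1 + κ`, `χ` from `cut1`. On the right side the integrand is supported where
`s ∈ [r, 2 r]`, `r = 1/R` or `r = R`, and bounded there by `C s^(-q-1) (s |∇u|² + u²)` (`eu_sq_le`, `|s B| ≤ n`); so by
`ann` and `volA` the right side is at most `C r^(-q-1) r^(n/2) sup u²`, with `sup u² ≤ C r^(k+1)` for `r = 1/R` and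
`sup u² ≤ C r^k` for `r = R` (annulus `r/2 ≤ s ≤ 4 r`). On the left both terms are nonnegative (`Cb.mono`,
`s B + 2 q ≥ 2 κ`), drop the second one.
-/

namespace Vale.Agent.P225

open Set MeasureTheory Filter Vale.Agent.P222
open scoped Topology ContDiff ENNReal

variable {n : ℕ} {u : (Fin n → ℝ) → ℝ}

private theorem errR_sqc : Continuous (sq : (Fin n → ℝ) → ℝ) := sq_smooth.continuous

private theorem errR_sq0 (x : Fin n → ℝ) : 0 ≤ sq x := Finset.sum_nonneg fun _ _ => sq_nonneg _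

private theorem errR_gr0 (x : Fin n → ℝ) : 0 ≤ gr u x := Finset.sum_nonneg fun _ _ => sq_nonneg _

private theorem errR_euc (hu : ContDiff ℝ ∞ u) : Continuous (eu u) :=
  continuous_finsetSum _ fun i _ => (continuous_apply i).mul (contDiff_pder hu i).continuous

private theorem errR_grc (hu : ContDiff ℝ ∞ u) : Continuous (gr u) :=
  continuous_finsetSum _ fun i _ => ((contDiff_pder hu i).continuous).pow 2

private theorem errR_cpt (a b : ℝ) : IsCompact {x : Fin n → ℝ | a ≤ sq x ∧ sq x ≤ b} := by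
  refine Metric.isCompact_of_isClosed_isBounded
    ((isClosed_le continuous_const errR_sqc).inter (isClosed_le errR_sqc continuous_const)) ?_
  refine (Metric.isBounded_closedBall (x := (0 : Fin n → ℝ)) (r := √b)).subset fun x hx => ?_
  rw [mem_closedBall_zero_iff, pi_norm_le_iff_of_nonneg (Real.sqrt_nonneg _)]
  intro i
  rw [Real.norm_eq_abs]
  refine Real.abs_le_sqrt (le_trans ?_ hx.2)
  exact Finset.single_le_sum (f := fun i => x i ^ 2) (fun i _ => sq_nonneg _) (Finset.mem_univ i)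

private theorem errR_int {f : (Fin n → ℝ) → ℝ} {a b : ℝ} (ha : 0 < a)
    (hf : ContinuousOn f {x | 0 < sq x}) (hz : ∀ x, ¬ (a ≤ sq x ∧ sq x ≤ b) → f x = 0) :
    Integrable f := by
  have h1 : IntegrableOn f {x : Fin n → ℝ | a ≤ sq x ∧ sq x ≤ b} :=
    (hf.mono fun x hx => lt_of_lt_of_le ha hx.1).integrableOn_compact (errR_cpt a b)
  exact (integrableOn_iff_integrable_of_support_subset
    (fun x hx => by_contra fun h => hx (hz x h))).1 h1

private theorem errR_ann {B : ℝ → ℝ} (hB : Cb n B) (hn : 2 ≤ n) (hu : ContDiff ℝ ∞ u)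
    (hp : Pde B u) :
    ∃ C : ℝ, 0 < C ∧ ∀ r D : ℝ, 0 < r → 0 ≤ D →
      (∀ x : Fin n → ℝ, r / 2 ≤ sq x → sq x ≤ 4 * r → u x ^ 2 ≤ D) →
      ∫ x in {x : Fin n → ℝ | r ≤ sq x ∧ sq x ≤ 2 * r}, (2 * r * gr u x + u x ^ 2) ≤
        C * D * r ^ ((n : ℝ) / 2) := by
  obtain ⟨Ca, hCa, ha⟩ := ann hB hn hu hp
  obtain ⟨Cv, hCv, hv⟩ := volA n
  refine ⟨(2 * Ca + 1) * Cv, by positivity, fun r D hr hD hbd => ?_⟩
  have i1 : IntegrableOn (fun x => 2 * r * gr u x) {x : Fin n → ℝ | r ≤ sq x ∧ sq x ≤ 2 * r} :=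
    (continuous_const.mul (errR_grc hu)).continuousOn.integrableOn_compact (errR_cpt _ _)
  have i2 : IntegrableOn (fun x => u x ^ 2) {x : Fin n → ℝ | r ≤ sq x ∧ sq x ≤ 2 * r} :=
    (hu.continuous.pow 2).continuousOn.integrableOn_compact (errR_cpt _ _)
  have i2' : IntegrableOn (fun x => u x ^ 2) {x : Fin n → ℝ | r / 2 ≤ sq x ∧ sq x ≤ 4 * r} :=
    (hu.continuous.pow 2).continuousOn.integrableOn_compact (errR_cpt _ _)
  rw [integral_add i1 i2, integral_const_mul]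
  have h1 := ha r hr
  have h2 : ∫ x in {x : Fin n → ℝ | r ≤ sq x ∧ sq x ≤ 2 * r}, u x ^ 2 ≤
      ∫ x in {x : Fin n → ℝ | r / 2 ≤ sq x ∧ sq x ≤ 4 * r}, u x ^ 2 :=
    setIntegral_mono_set i2' (ae_of_all _ fun x => sq_nonneg _)
      (LE.le.eventuallyLE fun x hx => ⟨by linarith [hx.1], by linarith [hx.2]⟩)
  have h3 := hv u hu.continuous r D hr hD hbd
  set I := ∫ x in {x : Fin n → ℝ | r / 2 ≤ sq x ∧ sq x ≤ 4 * r}, u x ^ 2 with hI
  calc 2 * r * (∫ x in {x : Fin n → ℝ | r ≤ sq x ∧ sq x ≤ 2 * r}, gr u x) +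
        ∫ x in {x : Fin n → ℝ | r ≤ sq x ∧ sq x ≤ 2 * r}, u x ^ 2
      ≤ 2 * r * (Ca / r * I) + I := by
        have := mul_le_mul_of_nonneg_left h1 (by positivity : 0 ≤ 2 * r)
        linarith
    _ = (2 * Ca + 1) * I := by field_simp
    _ ≤ (2 * Ca + 1) * (Cv * D * r ^ ((n : ℝ) / 2)) :=
        mul_le_mul_of_nonneg_left h3 (by positivity)
    _ = _ := by ring

private theorem errR_pt {C κ q N s g e v b c1 c2 r : ℝ} (hC : 0 < C) (hκ : 0 < κ) (hq : 0 < q)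
    (hN : 0 ≤ N) (hr : 0 < r) (hs1 : r ≤ s) (hs2 : s ≤ 2 * r) (hg : 0 ≤ g) (hv : 0 ≤ v)
    (he : e ^ 2 ≤ s * g) (hb : |b| ≤ N) (hc1 : |c1| ≤ C / s) (hc2 : |c2| ≤ C / s ^ 2) :
    2 * s ^ (-q) * c1 * e ^ 2 - s ^ (1 - q) * c1 * g +
      κ * (s ^ (-q) * c1 * b + 2 * s ^ (1 - q) * c2) * v ≤
      C * (3 + κ * (N + 2)) * r ^ (-q - 1) * (2 * r * g + v) := by
  have hs : 0 < s := lt_of_lt_of_le hr hs1
  set P : ℝ := s ^ (-q - 1) with hP
  have hP0 : 0 < P := Real.rpow_pos_of_pos hs _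
  have e1 : s ^ (-q) = P * s := by
    rw [hP, ← Real.rpow_add_one hs.ne']; ring_nf
  have e2 : s ^ (1 - q) = P * s * s := by
    rw [← e1, ← Real.rpow_add_one hs.ne']; ring_nf
  have hPr : P ≤ r ^ (-q - 1) := Real.rpow_le_rpow_of_nonpos hr hs1 (by linarith)
  rw [e1, e2]
  have d1 : |s * c1| ≤ C := by
    rw [abs_mul, abs_of_pos hs]
    calc s * |c1| ≤ s * (C / s) := mul_le_mul_of_nonneg_left hc1 hs.le
      _ = C := by field_simp
  have d2 : |s * s * c2| ≤ C := by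
    rw [abs_mul, abs_of_pos (mul_pos hs hs)]
    calc s * s * |c2| ≤ s * s * (C / s ^ 2) := mul_le_mul_of_nonneg_left hc2 (by positivity)
      _ = C := by field_simp
  have hsg : 0 ≤ s * g := by positivity
  have t1 : (s * c1) * e ^ 2 ≤ C * (s * g) :=
    calc (s * c1) * e ^ 2 ≤ |s * c1| * e ^ 2 :=
          mul_le_mul_of_nonneg_right (le_abs_self _) (sq_nonneg _)
      _ ≤ C * (s * g) := mul_le_mul d1 he (sq_nonneg _) hC.le
  have t2 : -((s * c1) * (s * g)) ≤ C * (s * g) := by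
    have := neg_abs_le (s * c1)
    have : -C ≤ s * c1 := by linarith
    nlinarith
  have t3 : (s * c1) * b ≤ C * N :=
    calc (s * c1) * b ≤ |s * c1 * b| := le_abs_self _
      _ = |s * c1| * |b| := abs_mul _ _
      _ ≤ C * N := mul_le_mul d1 hb (abs_nonneg _) hC.le
  have t4 : s * s * c2 ≤ C := (le_abs_self _).trans d2
  have t5 : κ * ((s * c1) * b + 2 * (s * s * c2)) * v ≤ κ * (C * N + 2 * C) * v := by
    apply mul_le_mul_of_nonneg_right _ hv
    apply mul_le_mul_of_nonneg_left _ hκ.le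
    linarith
  have hK : 0 < C * (3 + κ * (N + 2)) := by positivity
  calc 2 * (P * s) * c1 * e ^ 2 - P * s * s * c1 * g +
        κ * (P * s * c1 * b + 2 * (P * s * s) * c2) * v
      = P * (2 * ((s * c1) * e ^ 2) + -((s * c1) * (s * g)) +
        κ * ((s * c1) * b + 2 * (s * s * c2)) * v) := by ring
    _ ≤ P * (2 * (C * (s * g)) + C * (s * g) + κ * (C * N + 2 * C) * v) := by
        apply mul_le_mul_of_nonneg_left _ hP0.le
        linarith
    _ ≤ P * (C * (3 + κ * (N + 2)) * (2 * r * g + v)) := by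
        apply mul_le_mul_of_nonneg_left _ hP0.le
        have h1 : s * g ≤ 2 * r * g := mul_le_mul_of_nonneg_right hs2 hg
        have h2 : 0 ≤ C * κ * (N + 2) * (2 * r * g) := by positivity
        have h3 : 0 ≤ C * 3 * v := by positivity
        nlinarith [mul_le_mul_of_nonneg_left h1 (by positivity : 0 ≤ 3 * C)]
    _ ≤ r ^ (-q - 1) * (C * (3 + κ * (N + 2)) * (2 * r * g + v)) :=
        mul_le_mul_of_nonneg_right hPr (by positivity)
    _ = _ := by ring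

theorem errR {B : ℝ → ℝ} (hB : Cb n B) (hn : 2 ≤ n) (hu : ContDiff ℝ ∞ u) (hp : Pde B u) (k : ℕ)
    {C0 C1 : ℝ} (h0 : ∀ x, sq x ≤ 1 → u x ^ 2 ≤ C0 * sq x ^ (k + 1))
    (h1 : ∀ x, 1 ≤ sq x → u x ^ 2 ≤ C1 * sq x ^ k) :
    ∃ C : ℝ, ∀ R : ℝ, 4 ≤ R → ∃ χ : ℝ → ℝ, Cut (1 / R) (2 * R) χ ∧ (∀ s, 0 ≤ χ s) ∧
      (∀ s ∈ Icc (2 / R) R, χ s = 1) ∧
      ∫ x, χ (sq x) * sq x ^ (-((n : ℝ) / 2 - 1 + (k + 1 / 2)) - 1) *
        (sq x * B (sq x) + 2 * ((n : ℝ) / 2 - 1 + (k + 1 / 2))) *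
          (eu u x - (k + 1 / 2) * u x) ^ 2 ≤ C * R ^ (-(1 / 2) : ℝ) := by
  obtain ⟨C, hC, hcut⟩ := cut1
  obtain ⟨Ca, hCa, hann⟩ := errR_ann hB hn hu hp
  have hn' : (2 : ℝ) ≤ n := by exact_mod_cast hn
  have hk0 : (0 : ℝ) ≤ k := Nat.cast_nonneg k
  obtain ⟨κ, hκ⟩ : ∃ κ : ℝ, κ = (k : ℝ) + 1 / 2 := ⟨_, rfl⟩
  obtain ⟨q, hq⟩ : ∃ q : ℝ, q = (n : ℝ) / 2 - 1 + κ := ⟨_, rfl⟩
  have hκ0 : 0 < κ := by rw [hκ]; positivity
  have hq0 : 0 < q := by rw [hq]; linarith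
  obtain ⟨M, hM⟩ : ∃ M : ℝ, M = C * (3 + κ * (n + 2)) := ⟨_, rfl⟩
  have hM0 : 0 < M := by rw [hM]; positivity
  refine ⟨M * Ca * (|C0| * 4 ^ (k + 1) + |C1| * 4 ^ k), fun R hR => ?_⟩
  have hR0 : 0 < R := by linarith
  obtain ⟨χ, hχ, hχ01, hχ1, hχd, hχz⟩ := hcut R (by linarith)
  refine ⟨χ, hχ, fun s => (hχ01 s).1, hχ1, ?_⟩
  have hst := star hB.s hu hp hχ κ q hq
  rw [← hκ, ← hq]
  have hχc : Continuous fun x : Fin n → ℝ => χ (sq x) := hχ.s.continuous.comp errR_sqc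
  have hBc : Continuous fun x : Fin n → ℝ => B (sq x) := hB.s.continuous.comp errR_sqc
  have hsB : ContDiff ℝ ∞ (fun s => s * B s) := contDiff_id.mul hB.s
  have hdBc : Continuous fun x : Fin n → ℝ => deriv (fun s => s * B s) (sq x) :=
    (hsB.continuous_deriv (by exact_mod_cast le_top)).comp errR_sqc
  have hχ' : ContDiff ℝ ∞ (deriv χ) := by
    have := hχ.s
    rw [contDiff_infty_iff_deriv] at this
    exact this.2
  have hd1c : Continuous fun x : Fin n → ℝ => deriv χ (sq x) := hχ'.continuous.comp errR_sqc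
  have hd2c : Continuous fun x : Fin n → ℝ => deriv (deriv χ) (sq x) :=
    (hχ'.continuous_deriv (by exact_mod_cast le_top)).comp errR_sqc
  have hpow : ∀ p : ℝ, ContinuousOn (fun x : Fin n → ℝ => sq x ^ p) {x | 0 < sq x} := fun p =>
    errR_sqc.continuousOn.rpow_const fun x hx => Or.inl (ne_of_gt hx)
  have huc := hu.continuous
  have hec := errR_euc hu
  have hgc := errR_grc hu
  have hr1 : 0 < 1 / R := by positivity
  have hχ0 : ∀ x : Fin n → ℝ, ¬ (1 / R ≤ sq x ∧ sq x ≤ 2 * R) → χ (sq x) = 0 :=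
    fun x hx => hχ.supp _ hx
  -- integrability of the two terms on the left
  have I1 : Integrable (fun x : Fin n → ℝ => χ (sq x) * sq x ^ (-q - 1) *
      (sq x * B (sq x) + 2 * q) * (eu u x - κ * u x) ^ 2) := by
    refine errR_int (b := 2 * R) hr1 ?_ fun x hx => by rw [hχ0 x hx]; ring
    refine ((hχc.continuousOn.mul (hpow _)).mul ?_).mul ?_
    · exact ((errR_sqc.mul hBc).add continuous_const).continuousOn
    · exact ((hec.sub (continuous_const.mul huc)).pow 2).continuousOn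
  have I2 : Integrable (fun x : Fin n → ℝ => κ * χ (sq x) * sq x ^ (-q) *
      (-deriv (fun s => s * B s) (sq x)) * u x ^ 2) := by
    refine errR_int (b := 2 * R) hr1 ?_ fun x hx => by rw [hχ0 x hx]; ring
    refine (((continuous_const.mul hχc).continuousOn.mul (hpow _)).mul ?_).mul ?_
    · exact hdBc.neg.continuousOn
    · exact (huc.pow 2).continuousOn
  have hT2 : ∀ x : Fin n → ℝ, 0 ≤ κ * χ (sq x) * sq x ^ (-q) *
      (-deriv (fun s => s * B s) (sq x)) * u x ^ 2 := by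
    intro x
    rcases (errR_sq0 x).lt_or_eq with hx | hx
    · have := hB.mono _ hx
      have h3 := (hχ01 (sq x)).1
      have h4 : 0 ≤ -deriv (fun s => s * B s) (sq x) := by linarith
      positivity
    · have : χ (sq x) = 0 := hχ0 x fun h => by linarith [h.1]
      rw [this]; simp
  have hL : ∫ x : Fin n → ℝ, χ (sq x) * sq x ^ (-q - 1) *
      (sq x * B (sq x) + 2 * q) * (eu u x - κ * u x) ^ 2 ≤
      ∫ x : Fin n → ℝ, (χ (sq x) * sq x ^ (-q - 1) * (sq x * B (sq x) + 2 * q) *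
        (eu u x - κ * u x) ^ 2 +
      κ * χ (sq x) * sq x ^ (-q) * (-deriv (fun s => s * B s) (sq x)) * u x ^ 2) :=
    integral_mono I1 (I1.add I2) fun x => le_add_of_nonneg_right (hT2 x)
  refine hL.trans ?_
  rw [hst]
  -- the derivatives vanish off the two annuli
  have hz : ∀ x : Fin n → ℝ, ¬ (1 / R ≤ sq x ∧ sq x ≤ 2 * (1 / R)) →
      ¬ (R ≤ sq x ∧ sq x ≤ 2 * R) → deriv χ (sq x) = 0 ∧ deriv (deriv χ) (sq x) = 0 := by
    intro x hx1 hx2
    refine hχz _ (fun h => hx1 ⟨h.1, ?_⟩) (fun h => hx2 ⟨h.1, h.2⟩)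
    have := h.2
    calc sq x ≤ 2 / R := this
      _ = 2 * (1 / R) := by ring
  have I3 : Integrable (fun x : Fin n → ℝ => 2 * sq x ^ (-q) * deriv χ (sq x) * eu u x ^ 2 -
      sq x ^ (1 - q) * deriv χ (sq x) * gr u x +
      κ * (sq x ^ (-q) * deriv χ (sq x) * (n + sq x * B (sq x)) +
        2 * sq x ^ (1 - q) * deriv (deriv χ) (sq x)) * u x ^ 2) := by
    refine errR_int (b := 2 * R) hr1 ?_ fun x hx => ?_
    · have a1 : ContinuousOn (fun x : Fin n → ℝ => 2 * sq x ^ (-q) * deriv χ (sq x) * eu u x ^ 2)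
          {x | 0 < sq x} :=
        ((continuousOn_const.mul (hpow _)).mul hd1c.continuousOn).mul (hec.pow 2).continuousOn
      have a2 : ContinuousOn (fun x : Fin n → ℝ => sq x ^ (1 - q) * deriv χ (sq x) * gr u x)
          {x | 0 < sq x} :=
        ((hpow _).mul hd1c.continuousOn).mul hgc.continuousOn
      have a3 : ContinuousOn (fun x : Fin n → ℝ => sq x ^ (-q) * deriv χ (sq x) *
          (n + sq x * B (sq x))) {x | 0 < sq x} :=
        ((hpow _).mul hd1c.continuousOn).mul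
          (continuous_const.add (errR_sqc.mul hBc)).continuousOn
      have a4 : ContinuousOn (fun x : Fin n → ℝ => 2 * sq x ^ (1 - q) * deriv (deriv χ) (sq x))
          {x | 0 < sq x} :=
        (continuousOn_const.mul (hpow _)).mul hd2c.continuousOn
      exact (a1.sub a2).add ((continuousOn_const.mul (a3.add a4)).mul (huc.pow 2).continuousOn)
    · have hRR : 1 / R ≤ R := by
        rw [div_le_iff₀ hR0]; nlinarith
      have hz' := hz x (fun h => hx ⟨h.1, ?_⟩) (fun h => hx ⟨hRR.trans h.1, h.2⟩)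
      · rw [hz'.1, hz'.2]; ring
      · linarith [h.2]
  -- the dominating function
  have J : ∀ r : ℝ, Integrable (indicator {x : Fin n → ℝ | r ≤ sq x ∧ sq x ≤ 2 * r}
      (fun x => M * r ^ (-q - 1) * (2 * r * gr u x + u x ^ 2))) := by
    intro r
    rw [integrable_indicator_iff (errR_cpt _ _).measurableSet]
    exact (continuous_const.mul ((continuous_const.mul hgc).add
      (huc.pow 2))).continuousOn.integrableOn_compact (errR_cpt _ _)
  have hJ0 : ∀ r : ℝ, 0 < r → ∀ x : Fin n → ℝ, 0 ≤ indicator {x : Fin n → ℝ | r ≤ sq x ∧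
      sq x ≤ 2 * r} (fun x => M * r ^ (-q - 1) * (2 * r * gr u x + u x ^ 2)) x := by
    intro r hr x
    refine indicator_nonneg (fun x _ => ?_) x
    have := errR_gr0 (u := u) x
    have h2 : 0 ≤ r ^ (-q - 1) := Real.rpow_nonneg hr.le _
    positivity
  have hpt : ∀ r : ℝ, 0 < r → ∀ x : Fin n → ℝ, r ≤ sq x ∧ sq x ≤ 2 * r →
      2 * sq x ^ (-q) * deriv χ (sq x) * eu u x ^ 2 -
      sq x ^ (1 - q) * deriv χ (sq x) * gr u x +
      κ * (sq x ^ (-q) * deriv χ (sq x) * (n + sq x * B (sq x)) +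
        2 * sq x ^ (1 - q) * deriv (deriv χ) (sq x)) * u x ^ 2 ≤
      M * r ^ (-q - 1) * (2 * r * gr u x + u x ^ 2) := by
    intro r hr x hx
    have hs : 0 < sq x := lt_of_lt_of_le hr hx.1
    rw [hM]
    refine errR_pt hC hκ0 hq0 (by linarith) hr hx.1 hx.2 (errR_gr0 x) (sq_nonneg _)
      (eu_sq_le u x) ?_ (hχd _ hs).1 (hχd _ hs).2
    rw [abs_le]
    have h3 := hB.low _ hs.le
    have h4 := hB.up _ hs.le
    constructor <;> linarith
  have hmain : ∀ x : Fin n → ℝ, 2 * sq x ^ (-q) * deriv χ (sq x) * eu u x ^ 2 -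
      sq x ^ (1 - q) * deriv χ (sq x) * gr u x +
      κ * (sq x ^ (-q) * deriv χ (sq x) * (n + sq x * B (sq x)) +
        2 * sq x ^ (1 - q) * deriv (deriv χ) (sq x)) * u x ^ 2 ≤
      indicator {x : Fin n → ℝ | 1 / R ≤ sq x ∧ sq x ≤ 2 * (1 / R)}
        (fun x => M * (1 / R) ^ (-q - 1) * (2 * (1 / R) * gr u x + u x ^ 2)) x +
      indicator {x : Fin n → ℝ | R ≤ sq x ∧ sq x ≤ 2 * R}
        (fun x => M * R ^ (-q - 1) * (2 * R * gr u x + u x ^ 2)) x := by
    intro x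
    by_cases hx1 : 1 / R ≤ sq x ∧ sq x ≤ 2 * (1 / R)
    · refine le_add_of_le_of_nonneg ?_ (hJ0 R hR0 x)
      rw [indicator_of_mem (show x ∈ {x : Fin n → ℝ | 1 / R ≤ sq x ∧ sq x ≤ 2 * (1 / R)} from hx1)]
      exact hpt _ hr1 x hx1
    · by_cases hx2 : R ≤ sq x ∧ sq x ≤ 2 * R
      · refine le_add_of_nonneg_of_le (hJ0 _ hr1 x) ?_
        rw [indicator_of_mem (show x ∈ {x : Fin n → ℝ | R ≤ sq x ∧ sq x ≤ 2 * R} from hx2)]
        exact hpt _ hR0 x hx2
      · have hz' := hz x hx1 hx2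
        rw [hz'.1, hz'.2]
        have a1 := hJ0 R hR0 x
        have a2 := hJ0 _ hr1 x
        nlinarith
  refine (integral_mono I3 ((J _).add (J _)) hmain).trans ?_
  have hadd := integral_add (J (1 / R)) (J R)
  refine le_trans (le_of_eq hadd) ?_
  rw [integral_indicator (errR_cpt _ _).measurableSet,
    integral_indicator (errR_cpt _ _).measurableSet, integral_const_mul, integral_const_mul]
  have hb1 := hann (1 / R) (|C0| * (4 * (1 / R)) ^ (k + 1)) hr1 (by positivity) (by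
    intro x _ hx2
    have h5 : sq x ≤ 1 := hx2.trans (by
      rw [mul_one_div, div_le_one hR0]; exact hR)
    calc u x ^ 2 ≤ C0 * sq x ^ (k + 1) := h0 x h5
      _ ≤ |C0| * sq x ^ (k + 1) :=
        mul_le_mul_of_nonneg_right (le_abs_self _) (pow_nonneg (errR_sq0 x) _)
      _ ≤ |C0| * (4 * (1 / R)) ^ (k + 1) :=
        mul_le_mul_of_nonneg_left (pow_le_pow_left₀ (errR_sq0 x) hx2 _) (abs_nonneg _))
  have hb2 := hann R (|C1| * (4 * R) ^ k) hR0 (by positivity) (by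
    intro x hx1 hx2
    have h5 : 1 ≤ sq x := le_trans (by linarith) hx1
    calc u x ^ 2 ≤ C1 * sq x ^ k := h1 x h5
      _ ≤ |C1| * sq x ^ k :=
        mul_le_mul_of_nonneg_right (le_abs_self _) (pow_nonneg (errR_sq0 x) _)
      _ ≤ |C1| * (4 * R) ^ k :=
        mul_le_mul_of_nonneg_left (pow_le_pow_left₀ (errR_sq0 x) hx2 _) (abs_nonneg _))
  have hp1 : 0 ≤ M * (1 / R) ^ (-q - 1) := by positivity
  have hp2 : 0 ≤ M * R ^ (-q - 1) := by positivity
  have hb1' := mul_le_mul_of_nonneg_left hb1 hp1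
  have hb2' := mul_le_mul_of_nonneg_left hb2 hp2
  have hx1 : (1 / R) ^ (-q - 1) * ((1 / R) ^ (k + 1) * (1 / R) ^ ((n : ℝ) / 2)) =
      R ^ (-(1 / 2) : ℝ) := by
    rw [← Real.rpow_natCast, ← Real.rpow_add hr1, ← Real.rpow_add hr1, one_div,
      Real.inv_rpow hR0.le, ← Real.rpow_neg hR0.le]
    congr 1
    rw [hq, hκ]; push_cast; ring
  have hx2 : R ^ (-q - 1) * (R ^ k * R ^ ((n : ℝ) / 2)) = R ^ (-(1 / 2) : ℝ) := by
    rw [← Real.rpow_natCast, ← Real.rpow_add hR0, ← Real.rpow_add hR0]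
    congr 1
    rw [hq, hκ]; ring
  have e1 : M * (1 / R) ^ (-q - 1) * (Ca * (|C0| * (4 * (1 / R)) ^ (k + 1)) *
      (1 / R) ^ ((n : ℝ) / 2)) = M * Ca * (|C0| * 4 ^ (k + 1)) * R ^ (-(1 / 2) : ℝ) := by
    rw [← hx1, mul_pow]; ring
  have e2 : M * R ^ (-q - 1) * (Ca * (|C1| * (4 * R) ^ k) * R ^ ((n : ℝ) / 2)) =
      M * Ca * (|C1| * 4 ^ k) * R ^ (-(1 / 2) : ℝ) := by
    rw [← hx2, mul_pow]; ring
  rw [e1] at hb1'
  rw [e2] at hb2'
  calc _ ≤ M * Ca * (|C0| * 4 ^ (k + 1)) * R ^ (-(1 / 2) : ℝ) +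
        M * Ca * (|C1| * 4 ^ k) * R ^ (-(1 / 2) : ℝ) := add_le_add hb1' hb2'
    _ = _ := by ring

end Vale.Agent.P225
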