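import Vale.Agent.Lib.P225R.ErrR

/-!
# P225R EulerZ: a flat solution of small growth vanishes

`euler_eq`: if `Eu ≠ κ u` at a point with `s > 0`, then by continuity the (nonnegative) integral in `errR` is bounded below
by a positive constant for all large `R`; the points with `s = 0` by continuity or directly (`h0`). `zero_of_euler`:
`t ↦ t^(-κ) u(t x)` is constant on `(0, ∞)` and tends to `0` as `t → 0` by `h0`.
-/

namespace Vale.Agent.P225

open Set MeasureTheory Filter Vale.Agent.P222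
open scoped Topology ContDiff ENNReal

variable {n : ℕ} {u : (Fin n → ℝ) → ℝ}

private theorem EulerZ_sq_nonneg (x : Fin n → ℝ) : 0 ≤ sq x :=
  Finset.sum_nonneg fun _ _ => sq_nonneg _

private theorem EulerZ_sq_cont : Continuous (sq : (Fin n → ℝ) → ℝ) := by
  unfold sq
  fun_prop

private theorem EulerZ_compact (R : ℝ) : IsCompact {x : Fin n → ℝ | sq x ≤ R} := by
  refine Metric.isCompact_of_isClosed_isBounded (isClosed_le EulerZ_sq_cont continuous_const) ?_
  refine (Metric.isBounded_closedBall (x := (0 : Fin n → ℝ)) (r := √R)).subset fun x hx => ?_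
  rw [Metric.mem_closedBall, dist_zero_right, pi_norm_le_iff_of_nonneg (Real.sqrt_nonneg _)]
  intro i
  rw [Real.norm_eq_abs]
  refine Real.abs_le_sqrt ?_
  refine le_trans ?_ hx
  exact Finset.single_le_sum (f := fun i => x i ^ 2) (fun _ _ => sq_nonneg _) (Finset.mem_univ i)

private theorem EulerZ_eu_cont (hu : ContDiff ℝ ∞ u) : Continuous (eu u) := by
  unfold eu
  exact continuous_finsetSum _ fun i _ =>
    (continuous_apply i).mul (contDiff_pder hu i).continuous

theorem euler_eq {B : ℝ → ℝ} (hB : Cb n B) (hn : 2 ≤ n) (hu : ContDiff ℝ ∞ u) (hp : Pde B u) (k : ℕ)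
    {C0 C1 : ℝ} (h0 : ∀ x, sq x ≤ 1 → u x ^ 2 ≤ C0 * sq x ^ (k + 1))
    (h1 : ∀ x, 1 ≤ sq x → u x ^ 2 ≤ C1 * sq x ^ k) (x : Fin n → ℝ) (hx : 0 < sq x) :
    eu u x = (k + 1 / 2) * u x := by
  by_contra hne
  obtain ⟨C, hC⟩ := errR hB hn hu hp k h0 h1
  set q : ℝ := (n : ℝ) / 2 - 1 + (k + 1 / 2) with hq
  set f : (Fin n → ℝ) → ℝ := fun x => sq x ^ (-q - 1) * (sq x * B (sq x) + 2 * q) *
    (eu u x - (k + 1 / 2) * u x) ^ 2 with hf
  have hk0 : (0 : ℝ) ≤ k := Nat.cast_nonneg k
  have hfac : ∀ y : Fin n → ℝ, 0 < sq y * B (sq y) + 2 * q := by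
    intro y
    have := hB.low (sq y) (EulerZ_sq_nonneg y)
    rw [hq]
    linarith
  have hf0 : ∀ y, 0 ≤ f y := fun y => mul_nonneg (mul_nonneg
    (Real.rpow_nonneg (EulerZ_sq_nonneg y) _) (hfac y).le) (sq_nonneg _)
  have hfx : 0 < f x := by
    refine mul_pos (mul_pos (Real.rpow_pos_of_pos hx _) (hfac x)) ?_
    have h2 : eu u x - (k + 1 / 2) * u x ≠ 0 := sub_ne_zero.2 hne
    positivity
  have hcont : ∀ y, 0 < sq y → ContinuousAt f y := by
    intro y hy
    have c1 : ContinuousAt (fun y : Fin n → ℝ => sq y ^ (-q - 1)) y :=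
      EulerZ_sq_cont.continuousAt.rpow_const (Or.inl hy.ne')
    have c2 : Continuous (fun y : Fin n → ℝ => sq y * B (sq y) + 2 * q) :=
      (EulerZ_sq_cont.mul (hB.s.continuous.comp EulerZ_sq_cont)).add continuous_const
    have c3 : Continuous (fun y : Fin n → ℝ => (eu u y - (k + 1 / 2) * u y) ^ 2) :=
      ((EulerZ_eu_cont hu).sub (continuous_const.mul hu.continuous)).pow 2
    exact (c1.mul c2.continuousAt).mul c3.continuousAt
  -- a ball on which `f` is large
  obtain ⟨δ, hδ, hball⟩ : ∃ δ > 0, ∀ y ∈ Metric.ball x δ, f x / 2 ≤ f y ∧ sq x / 2 ≤ sq y ∧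
      sq y ≤ 2 * sq x := by
    have e1 : ∀ᶠ y in 𝓝 x, f x / 2 < f y := (hcont x hx).eventually_const_lt (by linarith)
    have e2 : ∀ᶠ y in 𝓝 x, sq x / 2 < sq y :=
      EulerZ_sq_cont.continuousAt.eventually_const_lt (by linarith)
    have e3 : ∀ᶠ y in 𝓝 x, sq y < 2 * sq x :=
      EulerZ_sq_cont.continuousAt.eventually_lt_const (by linarith)
    obtain ⟨δ, hδ, h⟩ := Metric.eventually_nhds_iff_ball.1 (e1.and (e2.and e3))
    exact ⟨δ, hδ, fun y hy => ⟨(h y hy).1.le, (h y hy).2.1.le, (h y hy).2.2.le⟩⟩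
  set V : ℝ := (volume (Metric.ball x δ)).toReal with hV
  have hVpos : 0 < V := ENNReal.toReal_pos (Metric.measure_ball_pos _ _ hδ).ne' measure_ball_lt_top.ne
  -- the lower bound
  have hlow : ∀ R : ℝ, 4 ≤ R → 4 / sq x ≤ R → 2 * sq x ≤ R → f x / 2 * V ≤
      C * R ^ (-(1 / 2) : ℝ) := by
    intro R hR4 hR1 hR2
    obtain ⟨χ, hχ, hχ0, hχ1, hint⟩ := hC R hR4
    refine le_trans ?_ hint
    have hR0 : 0 < R := by linarith
    set F : (Fin n → ℝ) → ℝ := fun x => χ (sq x) * sq x ^ (-q - 1) * (sq x * B (sq x) + 2 * q) *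
      (eu u x - (k + 1 / 2) * u x) ^ 2 with hF
    have hFf : ∀ y, F y = χ (sq y) * f y := fun y => by
      simp only [hF, hf]
      ring
    have hFc : Continuous F := by
      rw [continuous_iff_continuousAt]
      intro y
      by_cases hy : 0 < sq y
      · have : F = fun y => χ (sq y) * f y := funext hFf
        rw [this]
        exact (hχ.s.continuous.comp EulerZ_sq_cont).continuousAt.mul (hcont y hy)
      · have hlt : sq y < 1 / R := lt_of_le_of_lt (not_lt.1 hy) (by positivity)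
        have e1 : F =ᶠ[𝓝 y] fun _ => 0 := by
          have e2 : ∀ᶠ z in 𝓝 y, sq z < 1 / R :=
            EulerZ_sq_cont.continuousAt.eventually_lt_const hlt
          filter_upwards [e2] with z hz
          rw [hFf, hχ.supp (sq z) (fun h => absurd h.1 (not_le.2 hz)), zero_mul]
        exact (continuousAt_congr e1).2 continuousAt_const
    have hFs : HasCompactSupport F := by
      refine HasCompactSupport.intro (EulerZ_compact (2 * R)) fun y hy => ?_
      rw [hFf, hχ.supp (sq y) (fun h => hy h.2), zero_mul]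
    have hF0 : ∀ y, 0 ≤ F y := fun y => by
      rw [hFf]
      exact mul_nonneg (hχ0 _) (hf0 y)
    have hFi : Integrable F := hFc.integrable_of_hasCompactSupport hFs
    have h3 : ∫ y, (Metric.ball x δ).indicator (fun _ => f x / 2) y = f x / 2 * V := by
      rw [integral_indicator measurableSet_ball, setIntegral_const, smul_eq_mul, mul_comm]
      rfl
    rw [← h3]
    refine integral_mono_of_nonneg (Eventually.of_forall fun y => ?_) hFi
      (Eventually.of_forall fun y => ?_)
    · exact indicator_nonneg (fun _ _ => by positivity) y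
    · by_cases hy : y ∈ Metric.ball x δ
      · rw [indicator_of_mem hy]
        obtain ⟨h4, h5, h6⟩ := hball y hy
        have h7 : χ (sq y) = 1 := by
          refine hχ1 _ ⟨?_, by linarith⟩
          refine le_trans ?_ h5
          rw [div_le_iff₀ hx] at hR1
          rw [div_le_div_iff₀ hR0 two_pos]
          linarith
        have h8 : F y = f y := by rw [hFf, h7, one_mul]
        exact h4.trans (le_of_eq h8.symm)
      · rw [indicator_of_notMem hy]
        exact hF0 y
  have hlim : Tendsto (fun R : ℝ => C * R ^ (-(1 / 2) : ℝ)) atTop (𝓝 (C * 0)) :=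
    (tendsto_rpow_neg_atTop (by norm_num : (0 : ℝ) < 1 / 2)).const_mul C
  rw [mul_zero] at hlim
  have hev : ∀ᶠ R : ℝ in atTop, C * R ^ (-(1 / 2) : ℝ) < f x / 2 * V :=
    hlim.eventually_lt_const (by positivity)
  obtain ⟨R, hR, hR4, hR1, hR2⟩ := (hev.and ((eventually_ge_atTop 4).and
    ((eventually_ge_atTop (4 / sq x)).and (eventually_ge_atTop (2 * sq x))))).exists
  exact absurd (hlow R hR4 hR1 hR2) (not_le.2 hR)

private theorem EulerZ_sq_smul (t : ℝ) (x : Fin n → ℝ) : sq (t • x) = t ^ 2 * sq x := by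
  unfold sq
  rw [Finset.mul_sum]
  refine Finset.sum_congr rfl fun i _ => ?_
  rw [Pi.smul_apply, smul_eq_mul]
  ring

private theorem EulerZ_deriv (hu : ContDiff ℝ ∞ u) (x : Fin n → ℝ) {t : ℝ} (ht : t ≠ 0) :
    HasDerivAt (fun t : ℝ => u (t • x)) (eu u (t • x) / t) t := by
  have h1 : HasDerivAt (fun t : ℝ => t • x) x t := by
    have := (hasDerivAt_id t).smul_const x
    simpa using this
  have h2 := (smooth_differentiable hu (t • x)).hasFDerivAt.comp_hasDerivAt t h1
  have h3 : fderiv ℝ u (t • x) x = eu u (t • x) / t := by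
    rw [fderiv_eq_sum_pder, eq_div_iff ht]
    unfold eu
    rw [Finset.sum_mul]
    refine Finset.sum_congr rfl fun i _ => ?_
    rw [Pi.smul_apply, smul_eq_mul]
    ring
  rw [h3] at h2
  exact h2

theorem zero_of_euler (hu : ContDiff ℝ ∞ u) (k : ℕ) {C0 : ℝ}
    (h0 : ∀ x, sq x ≤ 1 → u x ^ 2 ≤ C0 * sq x ^ (k + 1))
    (he : ∀ x, 0 < sq x → eu u x = (k + 1 / 2) * u x) (x : Fin n → ℝ) : u x = 0 := by
  rcases (EulerZ_sq_nonneg x).eq_or_lt with hx | hx
  · have h1 := h0 x (by rw [← hx]; exact zero_le_one)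
    rw [← hx, zero_pow (Nat.succ_ne_zero k), mul_zero] at h1
    exact pow_eq_zero_iff (two_ne_zero) |>.1 (le_antisymm h1 (sq_nonneg _))
  · set W : ℝ → ℝ := fun t => u (t • x) ^ 2 / t ^ (2 * k + 1) with hW
    have hd : ∀ t ∈ Ioi (0 : ℝ), HasDerivAt W 0 t := by
      intro t ht
      have ht0 : t ≠ 0 := (mem_Ioi.1 ht).ne'
      have hst : 0 < sq (t • x) := by
        rw [EulerZ_sq_smul]
        positivity
      have h2 := ((EulerZ_deriv hu x ht0).pow 2).div (hasDerivAt_pow (2 * k + 1) t)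
        (pow_ne_zero _ ht0)
      have h3 : (↑2 * (u (t • x)) ^ (2 - 1) * (eu u (t • x) / t) * t ^ (2 * k + 1) -
          u (t • x) ^ 2 * (↑(2 * k + 1) * t ^ (2 * k + 1 - 1))) / (t ^ (2 * k + 1)) ^ 2 = 0 := by
        rw [he _ hst]
        have : (2 : ℝ) * u (t • x) ^ (2 - 1) * ((k + 1 / 2) * u (t • x) / t) * t ^ (2 * k + 1) -
            u (t • x) ^ 2 * (((2 * k + 1 : ℕ) : ℝ) * t ^ (2 * k + 1 - 1)) = 0 := by
          rw [Nat.add_sub_cancel, pow_succ t (2 * k)]
          push_cast
          field_simp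
          ring
        rw [this, zero_div]
      have h4 := h2.congr_deriv (g' := 0) (by
        refine Eq.trans ?_ h3
        push_cast
        rfl)
      exact h4
    have hconst : ∀ t ∈ Ioi (0 : ℝ), W t = W 1 := by
      intro t ht
      refine isOpen_Ioi.is_const_of_deriv_eq_zero isPreconnected_Ioi
        (fun s hs => (hd s hs).differentiableAt.differentiableWithinAt) (fun s hs => ?_) ht
        (mem_Ioi.2 one_pos)
      exact (hd s hs).deriv
    have hW1 : W 1 = u x ^ 2 := by
      simp only [hW, one_smul, one_pow, div_one]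
    have hbd : ∀ᶠ t : ℝ in 𝓝[>] 0, u x ^ 2 ≤ C0 * sq x ^ (k + 1) * t := by
      have e1 : ∀ᶠ t : ℝ in 𝓝[>] 0, t ^ 2 * sq x < 1 := by
        have : Tendsto (fun t : ℝ => t ^ 2 * sq x) (𝓝[>] 0) (𝓝 (0 ^ 2 * sq x)) :=
          (Continuous.tendsto (by fun_prop) 0).mono_left nhdsWithin_le_nhds
        rw [zero_pow two_ne_zero, zero_mul] at this
        exact this.eventually_lt_const one_pos
      filter_upwards [e1, self_mem_nhdsWithin] with t h2 ht
      have ht0 : (0 : ℝ) < t := ht
      rw [← hW1, ← hconst t ht]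
      have h3 := h0 (t • x) (by rw [EulerZ_sq_smul]; exact h2.le)
      rw [EulerZ_sq_smul] at h3
      simp only [hW]
      rw [div_le_iff₀ (by positivity)]
      refine h3.trans (le_of_eq ?_)
      rw [mul_pow, ← pow_mul]
      have : t ^ (2 * (k + 1)) = t * t ^ (2 * k + 1) := by
        rw [← pow_succ']
        congr 1
      rw [this]
      ring
    have hlim : Tendsto (fun t : ℝ => C0 * sq x ^ (k + 1) * t) (𝓝[>] 0)
        (𝓝 (C0 * sq x ^ (k + 1) * 0)) :=
      (Continuous.tendsto (by fun_prop) 0).mono_left nhdsWithin_le_nhds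
    rw [mul_zero] at hlim
    have h5 : u x ^ 2 ≤ 0 := ge_of_tendsto hlim hbd
    exact pow_eq_zero_iff (two_ne_zero) |>.1 (le_antisymm h5 (sq_nonneg _))

end Vale.Agent.P225
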