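import Vale.Agent.Lib.P225R.IdII

/-!
# P225R IdI: Rellich-Pohozaev identity

`0 = g (Δu + B Eu)(Eu - κ u)`, `E = x·∇`, `s = |x|²`, `g = g(s)`; with
`g Δu Eu = div(g ∇u Eu) - 2 g' (Eu)² - g |∇u|² - (1/2) g E|∇u|²`,
`-(1/2) g E|∇u|² = -(1/2) div(x g |∇u|²) + (1/2) (n g + 2 s g') |∇u|²`,
`g Δu u = div(g u ∇u) - g |∇u|² - 2 g' u Eu`, `-2 g' u Eu = -div(x g' u²) + (n g' + 2 s g'') u²` (`idII`),
`B g u Eu = (1/2) div(x B g u²) - (1/2) (n B g + 2 s (B g)') u²` (`idII`).
-/

namespace Vale.Agent.P225

open Set MeasureTheory Filter Vale.Agent.P222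
open scoped Topology ContDiff ENNReal

variable {n : ℕ} {u : (Fin n → ℝ) → ℝ} {a b : ℝ}

private lemma contDiff_coord (i : Fin n) : ContDiff ℝ ∞ (fun x : Fin n → ℝ => x i) :=
  contDiff_apply ℝ ℝ i

private lemma pder_coord (i j : Fin n) (x : Fin n → ℝ) :
    pder i (fun x : Fin n → ℝ => x j) x = if i = j then 1 else 0 := by
  unfold pder
  have h : fderiv ℝ (fun x : Fin n → ℝ => x j) x =
      ContinuousLinearMap.proj (R := ℝ) (φ := fun _ : Fin n => ℝ) j :=
    (ContinuousLinearMap.proj (R := ℝ) (φ := fun _ : Fin n => ℝ) j).fderiv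
  rw [h]
  simp [Pi.single_apply, eq_comm]

private lemma pder_sum' {ι : Type*} (s : Finset ι) {F : ι → (Fin n → ℝ) → ℝ}
    (hF : ∀ k ∈ s, ContDiff ℝ ∞ (F k)) (i : Fin n) (x : Fin n → ℝ) :
    pder i (fun x => ∑ k ∈ s, F k x) x = ∑ k ∈ s, pder i (F k) x := by
  unfold pder
  rw [fderiv_fun_sum (fun k hk => smooth_differentiable (hF k hk) x)]
  simp

private lemma contDiff_eu (hu : ContDiff ℝ ∞ u) : ContDiff ℝ ∞ (eu u) := by
  unfold eu
  exact ContDiff.sum fun i _ => (contDiff_coord i).mul (contDiff_pder hu i)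

private lemma contDiff_gr (hu : ContDiff ℝ ∞ u) : ContDiff ℝ ∞ (gr u) := by
  unfold gr
  exact ContDiff.sum fun i _ => (contDiff_pder hu i).pow 2

private lemma pder_eu (hu : ContDiff ℝ ∞ u) (i : Fin n) (x : Fin n → ℝ) :
    pder i (eu u) x = pder i u x + ∑ j, x j * pder i (pder j u) x := by
  have h1 : eu u = fun x => ∑ j, x j * pder j u x := rfl
  rw [h1, pder_sum' _ (fun j _ => (contDiff_coord j).mul (contDiff_pder hu j))]
  have h2 : ∀ j, pder i (fun x : Fin n → ℝ => x j * pder j u x) x =
      x j * pder i (pder j u) x + (if i = j then pder j u x else 0) := by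
    intro j
    rw [pder_mul (contDiff_coord j) (contDiff_pder hu j)]
    simp only [pder_coord]
    split_ifs <;> ring
  simp_rw [h2]
  rw [Finset.sum_add_distrib, Finset.sum_ite_eq]
  simp [add_comm]

private lemma pder_gr (hu : ContDiff ℝ ∞ u) (i : Fin n) (x : Fin n → ℝ) :
    pder i (gr u) x = ∑ j, 2 * pder j u x * pder i (pder j u) x := by
  have h1 : gr u = fun x => ∑ j, pder j u x * pder j u x := by
    funext x
    unfold gr
    exact Finset.sum_congr rfl fun j _ => by ring
  rw [h1, pder_sum' _ (fun j _ => (contDiff_pder hu j).mul (contDiff_pder hu j))]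
  refine Finset.sum_congr rfl fun j _ => ?_
  rw [pder_mul (contDiff_pder hu j) (contDiff_pder hu j)]
  ring

private lemma intg {g : ℝ → ℝ} (hg : Cut a b g) {f : (Fin n → ℝ) → ℝ} (hf : Continuous f) :
    Integrable (fun x : Fin n → ℝ => g (sq x) * f x) :=
  (cut_compact hg hf).2.integrable_of_hasCompactSupport (cut_compact hg hf).1

private lemma cut_deriv {g : ℝ → ℝ} (hg : Cut a b g) : Cut a b (deriv g) := by
  refine ⟨hg.a0, (contDiff_infty_iff_deriv.1 hg.s).2, fun s hs => ?_⟩
  have h : g =ᶠ[𝓝 s] fun _ => 0 := by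
    filter_upwards [isClosed_Icc.isOpen_compl.mem_nhds hs] with t ht using hg.supp t ht
  rw [h.deriv_eq]
  simp

private lemma div0 {g : ℝ → ℝ} (hg : Cut a b g) {f : Fin n → (Fin n → ℝ) → ℝ}
    (hf : ∀ i, ContDiff ℝ ∞ (f i)) :
    Integrable (fun x : Fin n → ℝ =>
      ∑ i, (2 * x i * deriv g (sq x) * f i x + g (sq x) * pder i (f i) x)) ∧
    ∫ x, ∑ i, (2 * x i * deriv g (sq x) * f i x + g (sq x) * pder i (f i) x) = 0 := by
  have hI : ∀ i ∈ (Finset.univ : Finset (Fin n)), Integrable (fun x : Fin n → ℝ =>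
      2 * x i * deriv g (sq x) * f i x + g (sq x) * pder i (f i) x) := by
    intro i _
    have h1 := intg (cut_deriv hg) (f := fun x => 2 * x i * f i x)
      ((continuous_const.mul (continuous_apply i)).mul (hf i).continuous)
    have h2 := intg hg (contDiff_pder (hf i) i).continuous
    refine (h1.add h2).congr (Eventually.of_forall fun x => ?_)
    simp only [Pi.add_apply]
    ring
  refine ⟨integrable_finsetSum _ hI, ?_⟩
  rw [integral_finsetSum _ hI]
  refine Finset.sum_eq_zero fun i _ => ?_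
  have hgs : ContDiff ℝ ∞ (fun x : Fin n → ℝ => g (sq x)) := hg.s.comp sq_smooth
  have hG : ContDiff ℝ ∞ (fun x : Fin n → ℝ => g (sq x) * f i x) := hgs.mul (hf i)
  have h := int_div hG (cut_compact hg (hf i).continuous).1 i
  rw [← h]
  refine integral_congr_ae (Eventually.of_forall fun x => ?_)
  have h2 : pder i (fun x : Fin n → ℝ => g (sq x) * f i x) x =
      g (sq x) * pder i (f i) x + pder i (fun x : Fin n → ℝ => g (sq x)) x * f i x :=
    congrFun (pder_mul hgs (hf i) i) x
  simp only [h2, pder_comp_sq hg.s]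
  ring

private lemma alg (A X : Fin n → ℝ) (H : Fin n → Fin n → ℝ) (hH : ∀ i j, H i j = H j i)
    (E R : ℝ) (hR : R = ∑ i, A i ^ 2) :
    ∑ i, ((A i * (A i + ∑ j, X j * H i j) + H i i * E) +
      (-(1 / 2)) * (X i * (∑ j, 2 * A j * H i j) + R)) =
      (∑ i, H i i) * E + (1 - (n : ℝ) / 2) * R := by
  have h1 : ∑ i, A i * ∑ j, X j * H i j = ∑ i, X i * ∑ j, A j * H i j := by
    simp_rw [Finset.mul_sum]
    rw [Finset.sum_comm]
    refine Finset.sum_congr rfl fun i _ => Finset.sum_congr rfl fun j _ => ?_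
    rw [hH j i]
    ring
  have h2 : ∀ i, (∑ j, 2 * A j * H i j) = 2 * ∑ j, A j * H i j := fun i => by
    rw [Finset.mul_sum]
    exact Finset.sum_congr rfl fun j _ => by ring
  have h3 : ∀ i, ((A i * (A i + ∑ j, X j * H i j) + H i i * E) +
      (-(1 / 2)) * (X i * (∑ j, 2 * A j * H i j) + R)) =
      A i ^ 2 + A i * (∑ j, X j * H i j) + H i i * E - X i * (∑ j, A j * H i j) - R / 2 :=
    fun i => by
      rw [h2]
      ring
  simp_rw [h3]
  rw [Finset.sum_sub_distrib, Finset.sum_sub_distrib, Finset.sum_add_distrib,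
    Finset.sum_add_distrib, h1, ← hR, ← Finset.sum_mul, Finset.sum_const, Finset.card_univ,
    Fintype.card_fin, nsmul_eq_mul]
  ring

private lemma lap_cont (hu : ContDiff ℝ ∞ u) :
    Continuous fun x : Fin n → ℝ => ∑ i, pder i (pder i u) x :=
  continuous_finsetSum _ fun i _ => (contDiff_pder (contDiff_pder hu i) i).continuous

/-- `∫ g Δu Eu` -/
theorem poho (hu : ContDiff ℝ ∞ u) {g : ℝ → ℝ} (hg : Cut a b g) :
    ∫ x, g (sq x) * (∑ i, pder i (pder i u) x) * eu u x =
      ∫ x, (-2 * deriv g (sq x) * eu u x ^ 2 +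
        (((n : ℝ) / 2 - 1) * g (sq x) + sq x * deriv g (sq x)) * gr u x) := by
  have hE := contDiff_eu hu
  have hR := contDiff_gr hu
  have hf : ∀ i : Fin n, ContDiff ℝ ∞
      (fun x : Fin n → ℝ => pder i u x * eu u x + (-(1 / 2)) * (x i * gr u x)) := fun i =>
    ((contDiff_pder hu i).mul hE).add (contDiff_const.mul ((contDiff_coord i).mul hR))
  obtain ⟨hi0, h0⟩ := div0 hg hf
  have hpd : ∀ (i : Fin n) (x : Fin n → ℝ),
      pder i (fun x : Fin n → ℝ => pder i u x * eu u x + (-(1 / 2)) * (x i * gr u x)) x =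
      (pder i u x * (pder i u x + ∑ j, x j * pder i (pder j u) x) +
        pder i (pder i u) x * eu u x) +
      (-(1 / 2)) * (x i * (∑ j, 2 * pder j u x * pder i (pder j u) x) + gr u x) := by
    intro i x
    have e1 : pder i (fun x : Fin n → ℝ => pder i u x * eu u x + (-(1 / 2)) * (x i * gr u x)) =
        fun x => pder i (fun x : Fin n → ℝ => pder i u x * eu u x) x +
          pder i (fun x : Fin n → ℝ => (-(1 / 2)) * (x i * gr u x)) x :=
      pder_add ((contDiff_pder hu i).mul hE)
        (contDiff_const.mul ((contDiff_coord i).mul hR)) i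
    have e2 : pder i (fun x : Fin n → ℝ => pder i u x * eu u x) =
        fun x => pder i u x * pder i (eu u) x + pder i (pder i u) x * eu u x :=
      pder_mul (contDiff_pder hu i) hE i
    have e3 : pder i (fun x : Fin n → ℝ => (-(1 / 2)) * (x i * gr u x)) =
        fun x => (-(1 / 2)) * pder i (fun x : Fin n → ℝ => x i * gr u x) x +
          pder i (fun _ : Fin n → ℝ => (-(1 / 2) : ℝ)) x * (x i * gr u x) :=
      pder_mul contDiff_const ((contDiff_coord i).mul hR) i
    have e4 : pder i (fun x : Fin n → ℝ => x i * gr u x) =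
        fun x => x i * pder i (gr u) x + pder i (fun x : Fin n → ℝ => x i) x * gr u x :=
      pder_mul (contDiff_coord i) hR i
    have e5 : pder i (fun _ : Fin n → ℝ => (-(1 / 2) : ℝ)) x = 0 := by
      unfold pder
      simp
    rw [congrFun e1 x]
    simp only [e2, e3, e4, e5, pder_coord, pder_eu hu, pder_gr hu]
    simp
  have hpt : ∀ x : Fin n → ℝ, g (sq x) * (∑ i, pder i (pder i u) x) * eu u x =
      (∑ i, (2 * x i * deriv g (sq x) *
        (pder i u x * eu u x + (-(1 / 2)) * (x i * gr u x)) +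
        g (sq x) * pder i (fun x : Fin n → ℝ =>
          pder i u x * eu u x + (-(1 / 2)) * (x i * gr u x)) x)) +
      (-2 * deriv g (sq x) * eu u x ^ 2 +
        (((n : ℝ) / 2 - 1) * g (sq x) + sq x * deriv g (sq x)) * gr u x) := by
    intro x
    have hA := alg (fun i => pder i u x) x (fun i j => pder i (pder j u) x)
      (fun i j => congrFun (pder_comm hu i j) x) (eu u x) (gr u x) rfl
    have hB : ∑ i, 2 * x i * deriv g (sq x) *
        (pder i u x * eu u x + (-(1 / 2)) * (x i * gr u x)) =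
        2 * deriv g (sq x) * eu u x ^ 2 - sq x * deriv g (sq x) * gr u x := by
      have h1 : ∀ i, 2 * x i * deriv g (sq x) *
          (pder i u x * eu u x + (-(1 / 2)) * (x i * gr u x)) =
          (2 * deriv g (sq x) * eu u x) * (x i * pder i u x) -
            (deriv g (sq x) * gr u x) * x i ^ 2 := fun i => by ring
      simp_rw [h1]
      rw [Finset.sum_sub_distrib, ← Finset.mul_sum, ← Finset.mul_sum]
      have h2 : ∑ i, x i * pder i u x = eu u x := rfl
      have h3 : ∑ i, x i ^ 2 = sq x := rfl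
      rw [h2, h3]
      ring
    rw [Finset.sum_add_distrib, hB, ← Finset.mul_sum]
    simp_rw [hpd]
    rw [hA]
    ring
  simp_rw [hpt]
  rw [integral_add hi0, h0, zero_add]
  have i1 := intg (cut_deriv hg) (f := fun x => -2 * eu u x ^ 2)
    (continuous_const.mul (hE.continuous.pow 2))
  have i2 := intg hg (f := fun x => ((n : ℝ) / 2 - 1) * gr u x)
    (continuous_const.mul hR.continuous)
  have i3 := intg (cut_deriv hg) (f := fun x => sq x * gr u x)
    (sq_smooth.continuous.mul hR.continuous)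
  refine ((i1.add i2).add i3).congr (Eventually.of_forall fun x => ?_)
  simp only [Pi.add_apply]
  ring

/-- `∫ g Δu u` -/
theorem energy (hu : ContDiff ℝ ∞ u) {g : ℝ → ℝ} (hg : Cut a b g) :
    ∫ x, g (sq x) * (∑ i, pder i (pder i u) x) * u x =
      -∫ x, (g (sq x) * gr u x + 2 * deriv g (sq x) * u x * eu u x) := by
  have hE := contDiff_eu hu
  have hR := contDiff_gr hu
  have hf : ∀ i : Fin n, ContDiff ℝ ∞ (fun x : Fin n → ℝ => pder i u x * u x) := fun i =>
    (contDiff_pder hu i).mul hu
  obtain ⟨hi0, h0⟩ := div0 hg hf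
  have hpt : ∀ x : Fin n → ℝ, g (sq x) * (∑ i, pder i (pder i u) x) * u x =
      (∑ i, (2 * x i * deriv g (sq x) * (pder i u x * u x) +
        g (sq x) * pder i (fun x : Fin n → ℝ => pder i u x * u x) x)) +
      (-(g (sq x) * gr u x + 2 * deriv g (sq x) * u x * eu u x)) := by
    intro x
    have hpd : ∀ i : Fin n, pder i (fun x : Fin n → ℝ => pder i u x * u x) x =
        pder i u x ^ 2 + pder i (pder i u) x * u x := fun i => by
      rw [congrFun (pder_mul (contDiff_pder hu i) hu i) x]
      ring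
    have h1 : ∀ i, 2 * x i * deriv g (sq x) * (pder i u x * u x) =
        (2 * deriv g (sq x) * u x) * (x i * pder i u x) := fun i => by ring
    simp_rw [hpd, h1]
    rw [Finset.sum_add_distrib, ← Finset.mul_sum, ← Finset.mul_sum, Finset.sum_add_distrib,
      ← Finset.sum_mul]
    have h2 : ∑ i, x i * pder i u x = eu u x := rfl
    have h3 : ∑ i, pder i u x ^ 2 = gr u x := rfl
    rw [h2, h3]
    ring
  simp_rw [hpt]
  have i1 := intg hg (f := fun x => -gr u x) hR.continuous.neg
  have i2 := intg (cut_deriv hg) (f := fun x => -(2 * u x * eu u x))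
    ((continuous_const.mul hu.continuous).mul hE.continuous).neg
  rw [integral_add hi0 ((i1.add i2).congr (Eventually.of_forall fun x => by
    simp only [Pi.add_apply]
    ring)), h0, zero_add, integral_neg]

private lemma int6 {A P Q C D E : (Fin n → ℝ) → ℝ} (hA : Integrable A) (hP : Integrable P)
    (hQ : Integrable Q) (hC : Integrable C) (hD : Integrable D) (hE : Integrable E) (κ : ℝ) :
    ∫ x, (A x + P x + κ * Q x + (-κ) * C x + (-κ) * D x + (κ / 2) * E x) =
      (∫ x, A x) + (∫ x, P x) + κ * (∫ x, Q x) + (-κ) * (∫ x, C x) + (-κ) * (∫ x, D x) +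
        (κ / 2) * (∫ x, E x) := by
  have s1 : ∫ x, (A x + P x) = (∫ x, A x) + ∫ x, P x := integral_add hA hP
  have s2 : ∫ x, (A x + P x + κ * Q x) = (∫ x, (A x + P x)) + ∫ x, κ * Q x :=
    integral_add (hA.add hP) (hQ.const_mul κ)
  have s3 : ∫ x, (A x + P x + κ * Q x + (-κ) * C x) =
      (∫ x, (A x + P x + κ * Q x)) + ∫ x, (-κ) * C x :=
    integral_add ((hA.add hP).add (hQ.const_mul κ)) (hC.const_mul (-κ))
  have s4 : ∫ x, (A x + P x + κ * Q x + (-κ) * C x + (-κ) * D x) =
      (∫ x, (A x + P x + κ * Q x + (-κ) * C x)) + ∫ x, (-κ) * D x :=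
    integral_add (((hA.add hP).add (hQ.const_mul κ)).add (hC.const_mul (-κ)))
      (hD.const_mul (-κ))
  have s5 : ∫ x, (A x + P x + κ * Q x + (-κ) * C x + (-κ) * D x + (κ / 2) * E x) =
      (∫ x, (A x + P x + κ * Q x + (-κ) * C x + (-κ) * D x)) + ∫ x, (κ / 2) * E x :=
    integral_add ((((hA.add hP).add (hQ.const_mul κ)).add (hC.const_mul (-κ))).add
      (hD.const_mul (-κ))) (hE.const_mul (κ / 2))
  rw [s5, s4, s3, s2, s1, integral_const_mul, integral_const_mul, integral_const_mul,
    integral_const_mul]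

theorem idI {B : ℝ → ℝ} (hB : ContDiff ℝ ∞ B) (hu : ContDiff ℝ ∞ u) (hp : Pde B u) {g : ℝ → ℝ}
    (hg : Cut a b g) (κ : ℝ) :
    ∫ x, ((B (sq x) * g (sq x) - 2 * deriv g (sq x)) * eu u x ^ 2 +
      (((n : ℝ) / 2 - 1 + κ) * g (sq x) + sq x * deriv g (sq x)) * gr u x +
      (-κ * (n * deriv g (sq x) + 2 * sq x * deriv (deriv g) (sq x)) +
        κ / 2 * (n * (B (sq x) * g (sq x)) + 2 * sq x * deriv (fun s => B s * g s) (sq x))) *
          u x ^ 2) = 0 := by
  have hE := contDiff_eu hu
  have hR := contDiff_gr hu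
  have hBs : Continuous fun x : Fin n → ℝ => B (sq x) := hB.continuous.comp sq_smooth.continuous
  have hBg : Cut a b (fun s => B s * g s) :=
    ⟨hg.a0, hB.mul hg.s, fun s hs => by simp [hg.supp s hs]⟩
  have hg' := cut_deriv hg
  have hg'' := cut_deriv hg'
  have hBg' := cut_deriv hBg
  have hpde : ∀ x : Fin n → ℝ, ∑ i, pder i (pder i u) x = -(B (sq x) * eu u x) := fun x => by
    have := hp x
    linarith
  -- the four integrands
  have JA : Integrable (fun x : Fin n → ℝ => B (sq x) * g (sq x) * eu u x ^ 2) :=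
    (intg hg (f := fun x => B (sq x) * eu u x ^ 2) (hBs.mul (hE.continuous.pow 2))).congr
      (Eventually.of_forall fun x => by
        simp only
        ring)
  have JP : Integrable (fun x : Fin n → ℝ => -2 * deriv g (sq x) * eu u x ^ 2 +
      (((n : ℝ) / 2 - 1) * g (sq x) + sq x * deriv g (sq x)) * gr u x) := by
    have i1 := intg hg' (f := fun x => -2 * eu u x ^ 2)
      (continuous_const.mul (hE.continuous.pow 2))
    have i2 := intg hg (f := fun x => ((n : ℝ) / 2 - 1) * gr u x)
      (continuous_const.mul hR.continuous)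
    have i3 := intg hg' (f := fun x => sq x * gr u x)
      (sq_smooth.continuous.mul hR.continuous)
    refine ((i1.add i2).add i3).congr (Eventually.of_forall fun x => ?_)
    simp only [Pi.add_apply]
    ring
  have JQ : Integrable (fun x : Fin n → ℝ =>
      g (sq x) * gr u x + 2 * deriv g (sq x) * u x * eu u x) := by
    have i1 := intg hg (f := fun x => gr u x) hR.continuous
    have i2 := intg hg' (f := fun x => 2 * u x * eu u x)
      ((continuous_const.mul hu.continuous).mul hE.continuous)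
    refine (i1.add i2).congr (Eventually.of_forall fun x => ?_)
    simp only [Pi.add_apply]
    ring
  have JB : Integrable (fun x : Fin n → ℝ => B (sq x) * g (sq x) * u x * eu u x) :=
    (intg hg (f := fun x => B (sq x) * u x * eu u x)
      ((hBs.mul hu.continuous).mul hE.continuous)).congr
      (Eventually.of_forall fun x => by
        simp only
        ring)
  have JC : Integrable (fun x : Fin n → ℝ => 2 * deriv g (sq x) * u x * eu u x) :=
    (intg hg' (f := fun x => 2 * u x * eu u x)
      ((continuous_const.mul hu.continuous).mul hE.continuous)).congr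
      (Eventually.of_forall fun x => by
        simp only
        ring)
  have JD : Integrable (fun x : Fin n → ℝ =>
      ((n : ℝ) * deriv g (sq x) + 2 * sq x * deriv (deriv g) (sq x)) * u x ^ 2) := by
    have i1 := intg hg' (f := fun x => (n : ℝ) * u x ^ 2)
      (continuous_const.mul (hu.continuous.pow 2))
    have i2 := intg hg'' (f := fun x => 2 * sq x * u x ^ 2)
      ((continuous_const.mul sq_smooth.continuous).mul (hu.continuous.pow 2))
    refine (i1.add i2).congr (Eventually.of_forall fun x => ?_)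
    simp only [Pi.add_apply]
    ring
  have JE : Integrable (fun x : Fin n → ℝ =>
      ((n : ℝ) * (B (sq x) * g (sq x)) + 2 * sq x * deriv (fun s => B s * g s) (sq x)) *
        u x ^ 2) := by
    have i1 := intg hBg (f := fun x => (n : ℝ) * u x ^ 2)
      (continuous_const.mul (hu.continuous.pow 2))
    have i2 := intg hBg' (f := fun x => 2 * sq x * u x ^ 2)
      ((continuous_const.mul sq_smooth.continuous).mul (hu.continuous.pow 2))
    refine (i1.add i2).congr (Eventually.of_forall fun x => ?_)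
    simp only [Pi.add_apply]
    ring
  have E1 : -∫ x, B (sq x) * g (sq x) * eu u x ^ 2 =
      ∫ x, (-2 * deriv g (sq x) * eu u x ^ 2 +
        (((n : ℝ) / 2 - 1) * g (sq x) + sq x * deriv g (sq x)) * gr u x) := by
    rw [← poho hu hg, ← integral_neg]
    refine integral_congr_ae (Eventually.of_forall fun x => ?_)
    simp only [hpde x]
    ring
  have E2 : ∫ x, B (sq x) * g (sq x) * u x * eu u x =
      ∫ x, (g (sq x) * gr u x + 2 * deriv g (sq x) * u x * eu u x) := by
    have h := energy hu hg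
    rw [← neg_inj, ← h, ← integral_neg]
    refine integral_congr_ae (Eventually.of_forall fun x => ?_)
    simp only [hpde x]
    ring
  have E3 := idII hu hg'
  have E4 := idII hu hBg
  have E4' : ∫ x, 2 * (B (sq x) * g (sq x)) * u x * eu u x =
      2 * ∫ x, B (sq x) * g (sq x) * u x * eu u x := by
    rw [← integral_const_mul]
    refine integral_congr_ae (Eventually.of_forall fun x => ?_)
    simp only
    ring
  rw [E4'] at E4
  have hsplit : ∀ x : Fin n → ℝ,
      ((B (sq x) * g (sq x) - 2 * deriv g (sq x)) * eu u x ^ 2 +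
      (((n : ℝ) / 2 - 1 + κ) * g (sq x) + sq x * deriv g (sq x)) * gr u x +
      (-κ * (n * deriv g (sq x) + 2 * sq x * deriv (deriv g) (sq x)) +
        κ / 2 * (n * (B (sq x) * g (sq x)) + 2 * sq x * deriv (fun s => B s * g s) (sq x))) *
          u x ^ 2) =
      B (sq x) * g (sq x) * eu u x ^ 2 +
      (-2 * deriv g (sq x) * eu u x ^ 2 +
        (((n : ℝ) / 2 - 1) * g (sq x) + sq x * deriv g (sq x)) * gr u x) +
      κ * (g (sq x) * gr u x + 2 * deriv g (sq x) * u x * eu u x) +
      (-κ) * (2 * deriv g (sq x) * u x * eu u x) +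
      (-κ) * (((n : ℝ) * deriv g (sq x) + 2 * sq x * deriv (deriv g) (sq x)) * u x ^ 2) +
      (κ / 2) * (((n : ℝ) * (B (sq x) * g (sq x)) +
        2 * sq x * deriv (fun s => B s * g s) (sq x)) * u x ^ 2) := fun x => by ring
  simp_rw [hsplit]
  rw [int6 JA JP JQ JC JD JE κ, ← E1, ← E2]
  have E3' : ∫ x, 2 * deriv g (sq x) * u x * eu u x =
      -∫ x, ((n : ℝ) * deriv g (sq x) + 2 * sq x * deriv (deriv g) (sq x)) * u x ^ 2 := E3
  rw [E3']
  linear_combination (κ / 2) * E4

end Vale.Agent.P225
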