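import Vale.Agent.Lib.P225R.Defs

/-!
# P225R Jets: a solution is determined to order `k` by the derivatives with at most one `∂₀`

`Dl_perm`: partial derivatives commute (`pder_comm`). `jets`: prove `Van (m + 1) u 0` by induction on `m ≤ k`: for lists of
length `m` induction on `count 0`: if the count is at most one, permute to `mlist α`; otherwise the list is a permutation of
`0 :: 0 :: l'`, and `∂₀∂₀u = -∑_{j ≠ 0} ∂ⱼ∂ⱼ u - B(|x|²) ∑ xⱼ ∂ⱼ u`; the last term does not contribute by `leibniz` (all
derivatives of order `< m` of `u` vanish).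
-/

namespace Vale.Agent.P225

open Set MeasureTheory Filter Vale.Agent.P222
open scoped Topology ContDiff ENNReal

theorem Dl_perm {n : ℕ} {u : (Fin n → ℝ) → ℝ} (hu : ContDiff ℝ ∞ u) {l l' : List (Fin n)}
    (h : l.Perm l') : Dl l u = Dl l' u := by
  induction h generalizing u with
  | nil => rfl
  | cons i _ ih => exact ih (contDiff_pder hu i)
  | swap i j l =>
    show Dl l (pder i (pder j u)) = Dl l (pder j (pder i u))
    rw [pder_comm hu i j]
  | trans _ _ ih1 ih2 => exact (ih1 hu).trans (ih2 hu)

private lemma count_flat {n : ℕ} (α : Fin n → ℕ) (a : Fin n) (L : List (Fin n)) (hL : L.Nodup) :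
    (L.flatMap fun i => List.replicate (α i) i).count a = if a ∈ L then α a else 0 := by
  induction L with
  | nil => simp
  | cons b L ih =>
    have hb := (List.nodup_cons.1 hL).1
    rw [List.flatMap_cons, List.count_append, ih (List.nodup_cons.1 hL).2, List.count_replicate]
    by_cases hab : b = a
    · subst hab
      simp [hb]
    · have hba : ¬ a = b := fun h => hab h.symm
      simp [hab, hba]

private lemma mlist_count {n : ℕ} (α : Fin n → ℕ) (a : Fin n) : (mlist α).count a = α a := by
  unfold mlist
  rw [count_flat _ _ _ (List.nodup_finRange n)]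
  simp

private lemma perm_mlist {n : ℕ} (l : List (Fin n)) : l.Perm (mlist fun i => l.count i) :=
  List.perm_iff_count.2 fun a => (mlist_count (fun i => l.count i) a).symm

private lemma sum_cnt {n : ℕ} (l : List (Fin n)) : ∑ i, l.count i = l.length := by
  have h := Multiset.sum_count_eq_card (s := Finset.univ) (m := (l : Multiset (Fin n))) (by simp)
  simpa using h

private lemma jets_step {m k : ℕ} {u : (Fin (m + 1) → ℝ) → ℝ} {B : ℝ → ℝ} (hB : ContDiff ℝ ∞ B)
    (hu : ContDiff ℝ ∞ u) (hp : Pde B u)
    (h : ∀ α : Fin (m + 1) → ℕ, ∑ i, α i ≤ k → α 0 ≤ 1 → Dl (mlist α) u 0 = 0)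
    (j : ℕ) (hj : j ≤ k) (hv : Van j u 0) (c : ℕ) :
    ∀ l : List (Fin (m + 1)), l.length = j → l.count 0 = c → Dl l u 0 = 0 := by
  induction c using Nat.strong_induction_on with
  | _ c ih =>
    intro l hl hc
    by_cases hc1 : c ≤ 1
    · rw [Dl_perm hu (perm_mlist l)]
      refine h _ ?_ ?_
      · rw [sum_cnt]; omega
      · show l.count 0 ≤ 1
        omega
    · have h0 : (0 : Fin (m + 1)) ∈ l := List.count_pos_iff.1 (by omega)
      have p1 : l.Perm (0 :: l.erase 0) := List.perm_cons_erase h0
      have c1 : (l.erase 0).count 0 = c - 1 := by rw [List.count_erase_self]; omega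
      have h1 : (0 : Fin (m + 1)) ∈ l.erase 0 := List.count_pos_iff.1 (by omega)
      have p2 : (l.erase 0).Perm (0 :: (l.erase 0).erase 0) := List.perm_cons_erase h1
      obtain ⟨l', hl'⟩ : ∃ l', l' = (l.erase 0).erase 0 := ⟨_, rfl⟩
      rw [← hl'] at p2
      have p : l.Perm (0 :: 0 :: l') := p1.trans (p2.cons 0)
      have hlen : l'.length + 2 = j := by
        have h2 := p.length_eq
        simp only [List.length_cons] at h2
        omega
      have hcnt : l'.count 0 + 2 = c := by
        have h2 := p.count_eq 0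
        simp only [List.count_cons_self] at h2
        omega
      rw [Dl_perm hu p]
      show Dl l' (pder 0 (pder 0 u)) 0 = 0
      have hF : (fun x => ∑ i, pder i (pder i u) x + ∑ i, (B (sq x) * x i) * pder i u x) =
          fun _ => (0 : ℝ) := by
        funext x
        have h2 := hp x
        unfold eu at h2
        rw [Finset.mul_sum] at h2
        simp only [← mul_assoc] at h2
        exact h2
      have hsq : ContDiff ℝ ∞ (fun x : Fin (m + 1) → ℝ => sq x) := by
        unfold sq
        exact ContDiff.sum fun i _ => (contDiff_apply ℝ ℝ i).pow 2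
      have ha : ∀ i : Fin (m + 1), ContDiff ℝ ∞ (fun x : Fin (m + 1) → ℝ => B (sq x) * x i) :=
        fun i => (hB.comp hsq).mul (contDiff_apply ℝ ℝ i)
      have hD := congrFun (congrArg (Dl l') hF) 0
      rw [Dl_zero, Dl_add l' (ContDiff.sum fun i _ => contDiff_pder (contDiff_pder hu i) i)
        (ContDiff.sum fun i _ => (ha i).mul (contDiff_pder hu i)),
        Dl_sum _ l' (fun i _ => contDiff_pder (contDiff_pder hu i) i),
        Dl_sum _ l' (fun i _ => (ha i).mul (contDiff_pder hu i))] at hD
      have hv2 : Van (l'.length + 1 + 1) u 0 := by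
        have h3 : l'.length + 1 + 1 = j := by omega
        rw [h3]; exact hv
      have hz : ∀ i : Fin (m + 1),
          Dl l' (fun x => (B (sq x) * x i) * pder i u x) 0 = 0 := fun i =>
        (leibniz (l'.length + 1) (ha i) (contDiff_pder hu i) (hv2.pder i) l').2
          (Nat.lt_succ_self _)
      have hs : ∀ i : Fin m, Dl l' (pder i.succ (pder i.succ u)) 0 = 0 := by
        intro i
        refine ih (List.count 0 l') (by omega) (i.succ :: i.succ :: l') ?_ ?_
        · simp only [List.length_cons]; omega
        · rw [List.count_cons_of_ne (Fin.succ_ne_zero i), List.count_cons_of_ne (Fin.succ_ne_zero i)]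
      have hz' : ∑ i : Fin (m + 1), Dl l' (fun x => (B (sq x) * x i) * pder i u x) 0 = 0 :=
        Finset.sum_eq_zero fun i _ => hz i
      beta_reduce at hD
      rw [Fin.sum_univ_succ, hz', Finset.sum_eq_zero (fun i _ => hs i), add_zero, add_zero] at hD
      exact hD

theorem jets {m k : ℕ} {u : (Fin (m + 1) → ℝ) → ℝ} {B : ℝ → ℝ} (hB : ContDiff ℝ ∞ B)
    (hu : ContDiff ℝ ∞ u) (hp : Pde B u)
    (h : ∀ α : Fin (m + 1) → ℕ, ∑ i, α i ≤ k → α 0 ≤ 1 → Dl (mlist α) u 0 = 0) :
    Van (k + 1) u 0 := by
  have hall : ∀ j, j ≤ k + 1 → Van j u 0 := by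
    intro j
    induction j with
    | zero => intro _ l hl; exact absurd hl (Nat.not_lt_zero _)
    | succ j ih =>
      intro hj l hl
      rcases Nat.lt_succ_iff_lt_or_eq.1 hl with h1 | h1
      · exact ih (by omega) l h1
      · exact jets_step hB hu hp h j (by omega) (ih (by omega)) _ l h1 rfl
  exact hall (k + 1) le_rfl

end Vale.Agent.P225
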