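import Vale.Agent.Lib.P225R.Defs

/-!
# P225R LapC: the harmonic equation of the metric `F(|x|²) |dx|²`

`det g = F^n`, `g^{ii} = 1/F`: `lap g u = F^(-n/2) ∑ ∂ᵢ (F^(n/2-1) ∂ᵢ u) = F⁻¹ (Δu + (n-2) (F'/F) x·∇u)`
(`√(F^n) * F⁻¹ = F^(n/2-1)`, use `Real.rpow` or differentiate `√(F^n)/F` directly). Compare Lib/P222W/LapPde.lean.
-/

namespace Vale.Agent.P225

open Set MeasureTheory Filter Vale.Agent.P222
open scoped Topology ContDiff ENNReal

private theorem LapC_sq_smooth {n : ℕ} : ContDiff ℝ ∞ (sq : (Fin n → ℝ) → ℝ) := by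
  unfold sq
  exact ContDiff.sum fun i _ => (contDiff_apply ℝ ℝ i).pow 2

private theorem LapC_pder_sq {n : ℕ} {φ : ℝ → ℝ} {φ' : ℝ} {x : Fin n → ℝ}
    (hφ : HasDerivAt φ φ' (sq x)) (i : Fin n) :
    pder i (fun y : Fin n → ℝ => φ (sq y)) x = φ' * (2 * x i) := by
  have h1 : HasFDerivAt (sq : (Fin n → ℝ) → ℝ)
      (∑ j, (2 * x j) • (ContinuousLinearMap.proj (R := ℝ) (φ := fun _ : Fin n => ℝ) j)) x := by
    unfold sq
    refine HasFDerivAt.fun_sum fun j _ => ?_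
    have h2 : HasFDerivAt (fun y : Fin n → ℝ => y j)
        (ContinuousLinearMap.proj (R := ℝ) (φ := fun _ : Fin n => ℝ) j) x :=
      (ContinuousLinearMap.proj (R := ℝ) (φ := fun _ : Fin n => ℝ) j).hasFDerivAt
    have h3 := (hasDerivAt_pow 2 (x j)).comp_hasFDerivAt x h2
    have e : ((2 : ℕ) : ℝ) * x j ^ (2 - 1) = 2 * x j := by norm_num
    rw [e] at h3
    exact h3
  have h4 := hφ.comp_hasFDerivAt x h1
  unfold pder
  have h5 : (fun y : Fin n → ℝ => φ (sq y)) = φ ∘ sq := rfl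
  rw [h5, h4.fderiv]
  simp [Pi.single_apply]

private theorem LapC_phi {n : ℕ} {a : ℝ} (ha : 0 < a) :
    √(a ^ n) * a⁻¹ = a ^ ((n : ℝ) / 2 - 1) := by
  rw [Real.sqrt_eq_rpow, ← Real.rpow_natCast, ← Real.rpow_mul ha.le, Real.rpow_sub_one ha.ne',
    div_eq_mul_inv]
  congr 2
  ring

theorem lap_pde {n : ℕ} {F : ℝ → ℝ} (hF : ContDiff ℝ ∞ F) (hpos : ∀ s, 0 < F s)
    {u : (Fin n → ℝ) → ℝ} (hu : ContDiff ℝ ∞ u) (h : ∀ x, lap (conf F) u x = 0) :
    Pde (fun s => ((n : ℝ) - 2) * (deriv F s / F s)) u := by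
  intro x
  have hx := h x
  have hdet : ∀ y : Fin n → ℝ, (conf F y).det = F (sq y) ^ n := by
    intro y
    unfold conf
    rw [Matrix.det_smul, Matrix.det_one, mul_one, Fintype.card_fin]
    rfl
  have hinv : ∀ y : Fin n → ℝ, (conf F y)⁻¹ = (F (sq y))⁻¹ • (1 : Matrix (Fin n) (Fin n) ℝ) := by
    intro y
    apply Matrix.inv_eq_right_inv
    unfold conf
    rw [Matrix.smul_mul, Matrix.mul_smul, Matrix.mul_one, smul_smul]
    have : F (∑ i, y i ^ 2) * (F (sq y))⁻¹ = 1 := mul_inv_cancel₀ (hpos _).ne'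
    rw [this, one_smul]
  have hin : ∀ (i : Fin n) (y : Fin n → ℝ),
      √(conf F y).det * ∑ j, (conf F y)⁻¹ i j * pder j u y =
        F (sq y) ^ ((n : ℝ) / 2 - 1) * pder i u y := by
    intro i y
    rw [hdet, hinv, Finset.sum_eq_single i]
    · rw [Matrix.smul_apply, Matrix.one_apply_eq, smul_eq_mul, mul_one, ← mul_assoc,
        LapC_phi (hpos _)]
    · intro j _ hj
      rw [Matrix.smul_apply, Matrix.one_apply_ne hj.symm, smul_zero, zero_mul]
    · intro hi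
      exact absurd (Finset.mem_univ i) hi
  have h2 : ∀ i : Fin n, (fun y => √(conf F y).det *
      ∑ j, (conf F y)⁻¹ i j * pder j u y) =
        fun y => F (sq y) ^ ((n : ℝ) / 2 - 1) * pder i u y :=
    fun i => funext (hin i)
  unfold lap at hx
  simp only [h2] at hx
  have hFd : HasDerivAt F (deriv F (sq x)) (sq x) :=
    (hF.differentiable (by simp) (sq x)).hasDerivAt
  have hφd : HasDerivAt (fun s => F s ^ ((n : ℝ) / 2 - 1))
      (deriv F (sq x) * ((n : ℝ) / 2 - 1) * F (sq x) ^ ((n : ℝ) / 2 - 1 - 1)) (sq x) :=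
    hFd.rpow_const (Or.inl (hpos _).ne')
  have hφs : ContDiff ℝ ∞ fun y : Fin n → ℝ => F (sq y) ^ ((n : ℝ) / 2 - 1) :=
    (hF.comp LapC_sq_smooth).rpow_const_of_ne fun y => (hpos _).ne'
  have h3 : ∀ i : Fin n, pder i (fun y => F (sq y) ^ ((n : ℝ) / 2 - 1) * pder i u y) x =
      F (sq x) ^ ((n : ℝ) / 2 - 1) * (pder i (pder i u) x +
        ((n : ℝ) - 2) * (deriv F (sq x) / F (sq x)) * (x i * pder i u x)) := by
    intro i
    rw [pder_mul hφs (contDiff_pder hu i)]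
    simp only [LapC_pder_sq hφd i]
    rw [Real.rpow_sub_one (hpos _).ne' ((n : ℝ) / 2 - 1)]
    ring
  simp only [h3] at hx
  rw [← Finset.mul_sum, Finset.sum_add_distrib, ← Finset.mul_sum] at hx
  have hd0 : (√(conf F x).det)⁻¹ ≠ 0 := by
    rw [hdet]
    exact inv_ne_zero (Real.sqrt_pos.2 (pow_pos (hpos _) n)).ne'
  have hφ0 : F (sq x) ^ ((n : ℝ) / 2 - 1) ≠ 0 := (Real.rpow_pos_of_pos (hpos _) _).ne'
  rcases mul_eq_zero.1 hx with h4 | h4
  · exact absurd h4 hd0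
  · rcases mul_eq_zero.1 h4 with h5 | h5
    · exact absurd h5 hφ0
    · exact h5

end Vale.Agent.P225
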