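import Vale.Agent.Lib.P225R.Defs

/-!
# P225R Taylor: functions with vanishing derivatives of order `≤ k` at `0`

Induction on the order with the mean value inequality on the balls of the sup norm.
-/

namespace Vale.Agent.P225

open Set MeasureTheory Filter Vale.Agent.P222
open scoped Topology ContDiff ENNReal

variable {n : ℕ} {u : (Fin n → ℝ) → ℝ}

private theorem Taylor_sup (m : ℕ) : ∀ {u : (Fin n → ℝ) → ℝ}, ContDiff ℝ ∞ u → Van m u 0 →
    ∃ C : ℝ, 0 ≤ C ∧ ∀ x, ‖x‖ ≤ 1 → |u x| ≤ C * ‖x‖ ^ m := by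
  induction m with
  | zero =>
    intro u hu _
    obtain ⟨C, hC⟩ := (isCompact_closedBall (0 : Fin n → ℝ) 1).exists_bound_of_continuousOn
      hu.continuous.continuousOn
    refine ⟨max C 0, le_max_right _ _, fun x hx => ?_⟩
    rw [pow_zero, mul_one]
    have h1 := hC x (by rwa [mem_closedBall_zero_iff])
    rw [Real.norm_eq_abs] at h1
    exact h1.trans (le_max_left _ _)
  | succ m ih =>
    intro u hu hv
    have h0 : u 0 = 0 := hv [] (by simp)
    choose C hC0 hC using fun i : Fin n => ih (contDiff_pder hu i) (hv.pder i)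
    refine ⟨∑ i, C i, Finset.sum_nonneg fun i _ => hC0 i, fun x hx => ?_⟩
    have hd : ∀ y ∈ Metric.closedBall (0 : Fin n → ℝ) ‖x‖, ‖fderiv ℝ u y‖ ≤
        (∑ i, C i) * ‖x‖ ^ m := by
      intro y hy
      rw [mem_closedBall_zero_iff] at hy
      refine ContinuousLinearMap.opNorm_le_bound _
        (mul_nonneg (Finset.sum_nonneg fun i _ => hC0 i) (by positivity)) fun v => ?_
      rw [fderiv_eq_sum_pder, Real.norm_eq_abs]
      calc |∑ i, v i * pder i u y| ≤ ∑ i, |v i * pder i u y| :=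
            Finset.abs_sum_le_sum_abs _ _
        _ ≤ ∑ i, C i * ‖x‖ ^ m * ‖v‖ := by
            refine Finset.sum_le_sum fun i _ => ?_
            rw [abs_mul, mul_comm]
            have h1 : |pder i u y| ≤ C i * ‖x‖ ^ m :=
              (hC i y (hy.trans hx)).trans
                (mul_le_mul_of_nonneg_left (pow_le_pow_left₀ (norm_nonneg _) hy m) (hC0 i))
            have h2 : |v i| ≤ ‖v‖ := norm_le_pi_norm v i
            exact mul_le_mul h1 h2 (abs_nonneg _) (mul_nonneg (hC0 i) (by positivity))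
        _ = (∑ i, C i) * ‖x‖ ^ m * ‖v‖ := by
            rw [Finset.sum_mul, Finset.sum_mul]
    have h2 := (convex_closedBall (0 : Fin n → ℝ) ‖x‖).norm_image_sub_le_of_norm_fderiv_le
      (f := u) (𝕜 := ℝ) (fun y _ => smooth_differentiable hu y) hd
      (Metric.mem_closedBall_self (norm_nonneg x))
      (by rw [mem_closedBall_zero_iff] : x ∈ Metric.closedBall (0 : Fin n → ℝ) ‖x‖)
    rw [h0, sub_zero, sub_zero, Real.norm_eq_abs] at h2
    rw [pow_succ, ← mul_assoc]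
    exact h2

theorem taylor0 (hu : ContDiff ℝ ∞ u) (k : ℕ) (hv : Van (k + 1) u 0) :
    ∃ C : ℝ, ∀ x, sq x ≤ 1 → u x ^ 2 ≤ C * sq x ^ (k + 1) := by
  obtain ⟨C, hC0, hC⟩ := Taylor_sup (k + 1) hu hv
  refine ⟨C ^ 2, fun x hx => ?_⟩
  have hs0 : 0 ≤ sq x := Finset.sum_nonneg fun i _ => sq_nonneg _
  have h1 : ‖x‖ ≤ Real.sqrt (sq x) := by
    rw [pi_norm_le_iff_of_nonneg (Real.sqrt_nonneg _)]
    intro i
    rw [Real.norm_eq_abs, ← Real.sqrt_sq_eq_abs]
    exact Real.sqrt_le_sqrt (Finset.single_le_sum (f := fun i => x i ^ 2)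
      (fun j _ => sq_nonneg _) (Finset.mem_univ i))
  have h2 : ‖x‖ ^ 2 ≤ sq x := by
    rw [← Real.sq_sqrt hs0]
    exact pow_le_pow_left₀ (norm_nonneg _) h1 2
  have h3 : ‖x‖ ≤ 1 := h1.trans (Real.sqrt_le_one.2 hx)
  have h4 := hC x h3
  calc u x ^ 2 = |u x| ^ 2 := (sq_abs _).symm
    _ ≤ (C * ‖x‖ ^ (k + 1)) ^ 2 := pow_le_pow_left₀ (abs_nonneg _) h4 2
    _ = C ^ 2 * (‖x‖ ^ 2) ^ (k + 1) := by ring
    _ ≤ C ^ 2 * sq x ^ (k + 1) :=
        mul_le_mul_of_nonneg_left (pow_le_pow_left₀ (by positivity) h2 _) (by positivity)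

end Vale.Agent.P225
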