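import Vale.Agent.Lib.P225R.EulerZ
import Vale.Agent.Lib.P225R.Taylor
import Vale.Agent.Lib.P225R.Jets
import Vale.Agent.Lib.P225R.Dim
import Vale.Agent.Lib.P225R.Ricc
import Vale.Agent.Lib.P225R.Compl
import Vale.Agent.Lib.P225R.LapC

/-!
# P225R MainR: Yau's dimension comparison for rotationally symmetric metrics
-/

namespace Vale.Agent.P225

open Set MeasureTheory Filter Vale.Agent.P222
open scoped Topology ContDiff ENNReal

theorem main_r (m : ℕ) (hm : 1 ≤ m) (F : ℝ → ℝ) (hF : ContDiff ℝ ∞ F) (hpos : ∀ s, 0 < F s)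
    (hc : IsCompl (conf (n := m + 1) F))
    (hric : ∀ x : Fin (m + 1) → ℝ, (ric (conf F) x).PosSemidef) (k : ℕ) (hk : 1 ≤ k)
    (V : Submodule ℝ ((Fin (m + 1) → ℝ) → ℝ)) (hV : ∀ u ∈ V, HarmGrowth (conf F) k u) :
    FiniteDimensional ℝ V ∧
      Module.finrank ℝ V ≤ (m + k).choose k + (m + k - 1).choose (k - 1) := by
  have hn : 2 ≤ m + 1 := by omega
  have hmono : ∀ s, 0 < s → deriv (fun s => s * (deriv F s / F s)) s ≤ 0 :=
    fun s hs => ric_mono hn hF hpos hric s hs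
  have hL := L_nonpos hF hpos hmono
  have hlow := compl_low (n := m + 1) (by omega) hF hpos hmono hc
  have hn2 : (2 : ℝ) ≤ ((m + 1 : ℕ) : ℝ) := by exact_mod_cast hn
  have hn' : (0 : ℝ) ≤ ((m + 1 : ℕ) : ℝ) - 2 := by linarith
  have hdF : ContDiff ℝ ∞ (deriv F) := (contDiff_infty_iff_deriv.1 hF).2
  have hq : ContDiff ℝ ∞ fun s => deriv F s / F s := hdF.div hF fun s => (hpos s).ne'
  have hCb : Cb (m + 1) fun s => (((m + 1 : ℕ) : ℝ) - 2) * (deriv F s / F s) := by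
    refine ⟨contDiff_const.mul hq, fun s hs => ?_, fun s hs => ?_, fun s hs => ?_⟩
    · have h1 := mul_le_mul_of_nonneg_left (hlow s hs) hn'
      have h2 : s * ((((m + 1 : ℕ) : ℝ) - 2) * (deriv F s / F s)) =
          (((m + 1 : ℕ) : ℝ) - 2) * (s * (deriv F s / F s)) := by ring
      rw [h2]
      linarith
    · have h1 := mul_nonpos_of_nonneg_of_nonpos hn' (hL s hs)
      have h2 : s * ((((m + 1 : ℕ) : ℝ) - 2) * (deriv F s / F s)) =
          (((m + 1 : ℕ) : ℝ) - 2) * (s * (deriv F s / F s)) := by ring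
      rw [h2]
      exact h1
    · have h2 : (fun s => s * ((((m + 1 : ℕ) : ℝ) - 2) * (deriv F s / F s))) =
          fun s => (((m + 1 : ℕ) : ℝ) - 2) * (s * (deriv F s / F s)) := by
        funext s
        ring
      have h3 : DifferentiableAt ℝ (fun s => s * (deriv F s / F s)) s :=
        (contDiff_id.mul hq).differentiable (by simp) s
      rw [h2, deriv_const_mul _ h3]
      exact mul_nonpos_of_nonneg_of_nonpos hn' (hmono s hs)
  refine dim_bound hk V (fun u hu => (hV u hu).smooth) fun u hu hα => ?_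
  have hu' := hV u hu
  have hp := lap_pde hF hpos hu'.smooth hu'.harmonic
  have hv := jets hCb.s hu'.smooth hp hα
  obtain ⟨C0, h0⟩ := taylor0 hu'.smooth k hv
  obtain ⟨C1, h1⟩ : ∃ C1 : ℝ, ∀ x, 1 ≤ sq x → u x ^ 2 ≤ C1 * sq x ^ k := by
    obtain ⟨C, hC⟩ := hu'.growth
    refine ⟨C ^ 2 * ((1 + √(F 0)) ^ 2) ^ k, fun x hx => ?_⟩
    have h2 := hC x
    have h3 := dist_le hF hpos hL x
    have h4 : 0 ≤ (gdist (conf F) 0 x).toReal := ENNReal.toReal_nonneg
    have h5 : 1 ≤ √(sq x) := by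
      rw [← Real.sqrt_one]
      exact Real.sqrt_le_sqrt hx
    have h6 : 1 + (gdist (conf F) 0 x).toReal ≤ (1 + √(F 0)) * √(sq x) := by
      have := Real.sqrt_nonneg (F 0)
      nlinarith
    rw [Real.rpow_natCast] at h2
    have h7 : 0 ≤ C * (1 + (gdist (conf F) 0 x).toReal) ^ k := (abs_nonneg _).trans h2
    calc u x ^ 2 = |u x| ^ 2 := (sq_abs _).symm
      _ ≤ (C * (1 + (gdist (conf F) 0 x).toReal) ^ k) ^ 2 :=
          pow_le_pow_left₀ (abs_nonneg _) h2 2
      _ = C ^ 2 * ((1 + (gdist (conf F) 0 x).toReal) ^ 2) ^ k := by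
          rw [mul_pow, ← pow_mul, ← pow_mul, mul_comm k 2]
      _ ≤ C ^ 2 * ((((1 + √(F 0)) * √(sq x))) ^ 2) ^ k := by gcongr
      _ = C ^ 2 * ((1 + √(F 0)) ^ 2) ^ k * sq x ^ k := by
          rw [mul_pow (1 + √(F 0)), Real.sq_sqrt (by linarith), mul_pow, mul_assoc]
  funext x
  exact zero_of_euler hu'.smooth k h0 (euler_eq hCb hn hu'.smooth hp k h0 h1) x

end Vale.Agent.P225
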