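import Vale.Agent.Lib.P225R.IdI

/-!
# P225R Star: the weighted identity

`idI` with `g = s^(-q) χ` (smooth since `χ = 0` for `s < a`), `q = n/2 - 1 + κ`, and `idII` with
`h = κ χ (s^(-q) B + 2 q s^(-q-1))` to pass from `(Eu)²` to `(Eu - κ u)²`. All terms without derivatives of `χ` cancel
except the two on the left.
-/

namespace Vale.Agent.P225

open Set MeasureTheory Filter Vale.Agent.P222
open scoped Topology ContDiff ENNReal

variable {n : ℕ} {u : (Fin n → ℝ) → ℝ} {a b : ℝ}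

private theorem Star_rpow {χ : ℝ → ℝ} (hχ : Cut a b χ) (e : ℝ) :
    Cut a b (fun s => s ^ e * χ s) := by
  refine ⟨hχ.a0, ?_, fun s hs => by rw [hχ.supp s hs, mul_zero]⟩
  rw [contDiff_iff_contDiffAt]
  intro s
  by_cases h : 0 < s
  · exact (Real.contDiffAt_rpow_const_of_ne h.ne').mul hχ.s.contDiffAt
  · have hev : (fun s => s ^ e * χ s) =ᶠ[𝓝 s] fun _ => (0 : ℝ) := by
      have hlt : s < a := lt_of_le_of_lt (not_lt.1 h) hχ.a0
      filter_upwards [Iio_mem_nhds hlt] with t ht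
      rw [hχ.supp t fun h' => absurd h'.1 (not_le.2 ht), mul_zero]
    exact contDiffAt_const.congr_of_eventuallyEq hev

private theorem Star_deriv {χ : ℝ → ℝ} (hχ : Cut a b χ) : Cut a b (deriv χ) := by
  refine ⟨hχ.a0, (contDiff_infty_iff_deriv.1 hχ.s).2, fun s hs => ?_⟩
  have hev : χ =ᶠ[𝓝 s] fun _ => (0 : ℝ) := by
    filter_upwards [isClosed_Icc.isOpen_compl.mem_nhds hs] with t ht
    exact hχ.supp t ht
  rw [hev.deriv_eq]
  exact deriv_const s 0

private theorem Star_mul {χ f : ℝ → ℝ} (hχ : Cut a b χ) (hf : ContDiff ℝ ∞ f) :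
    Cut a b (fun s => f s * χ s) :=
  ⟨hχ.a0, hf.mul hχ.s, fun s hs => by rw [hχ.supp s hs, mul_zero]⟩

private theorem Star_add {χ ψ : ℝ → ℝ} (hχ : Cut a b χ) (hψ : Cut a b ψ) :
    Cut a b (fun s => χ s + ψ s) :=
  ⟨hχ.a0, hχ.s.add hψ.s, fun s hs => by rw [hχ.supp s hs, hψ.supp s hs, add_zero]⟩

private theorem Star_int {g : ℝ → ℝ} (hg : Cut a b g) {f : (Fin n → ℝ) → ℝ} (hf : Continuous f) :
    Integrable (fun x : Fin n → ℝ => g (sq x) * f x) :=
  (cut_compact hg hf).2.integrable_of_hasCompactSupport (cut_compact hg hf).1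

private theorem Star_coef {B χ : ℝ → ℝ} (hB : ContDiff ℝ ∞ B) (hχ : Cut a b χ) (κ q m : ℝ)
    (hq : q = m / 2 - 1 + κ) (s : ℝ) :
    B s * (s ^ (-q) * χ s) + 2 * q * (s ^ (-q - 1) * χ s) =
      χ s * s ^ (-q - 1) * (s * B s + 2 * q) ∧
    B s * (s ^ (-q) * χ s) - 2 * deriv (fun s => s ^ (-q) * χ s) s =
      χ s * s ^ (-q - 1) * (s * B s + 2 * q) - 2 * s ^ (-q) * deriv χ s ∧
    (m / 2 - 1 + κ) * (s ^ (-q) * χ s) + s * deriv (fun s => s ^ (-q) * χ s) s =
      s ^ (1 - q) * deriv χ s ∧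
    κ ^ 2 * (χ s * s ^ (-q - 1) * (s * B s + 2 * q)) +
      κ * χ s * s ^ (-q) * (-deriv (fun s => s * B s) s) -
      κ * (s ^ (-q) * deriv χ s * (m + s * B s) + 2 * s ^ (1 - q) * deriv (deriv χ) s) -
      (-κ * (m * deriv (fun s => s ^ (-q) * χ s) s +
        2 * s * deriv (deriv (fun s => s ^ (-q) * χ s)) s) +
        κ / 2 * (m * (B s * (s ^ (-q) * χ s)) +
          2 * s * deriv (fun s => B s * (s ^ (-q) * χ s)) s)) =
      -(m * (κ * (B s * (s ^ (-q) * χ s) + 2 * q * (s ^ (-q - 1) * χ s))) +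
        2 * s * deriv (fun s => κ * (B s * (s ^ (-q) * χ s) + 2 * q * (s ^ (-q - 1) * χ s))) s) := by
  by_cases hs : s ∈ Icc a b
  · have hs0 : 0 < s := lt_of_lt_of_le hχ.a0 hs.1
    have hχd : ∀ t, HasDerivAt χ (deriv χ t) t := fun t =>
      ((hχ.s.differentiable (by simp)) t).hasDerivAt
    have hχd2 : ∀ t, HasDerivAt (deriv χ) (deriv (deriv χ) t) t := fun t =>
      (((Star_deriv hχ).s.differentiable (by simp)) t).hasDerivAt
    have hBd : ∀ t, HasDerivAt B (deriv B t) t := fun t =>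
      ((hB.differentiable (by simp)) t).hasDerivAt
    have hr : ∀ (e t : ℝ), 0 < t → HasDerivAt (fun t : ℝ => t ^ e) (e * t ^ (e - 1)) t :=
      fun e t ht => Real.hasDerivAt_rpow_const (Or.inl ht.ne')
    have hg : ∀ (e t : ℝ), 0 < t → HasDerivAt (fun s => s ^ e * χ s)
        (e * t ^ (e - 1) * χ t + t ^ e * deriv χ t) t := fun e t ht => (hr e t ht).mul (hχd t)
    have hg1 : deriv (fun s => s ^ (-q) * χ s) s =
        -q * s ^ (-q - 1) * χ s + s ^ (-q) * deriv χ s := (hg (-q) s hs0).deriv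
    have hev : deriv (fun s => s ^ (-q) * χ s) =ᶠ[𝓝 s]
        fun t => -q * (t ^ (-q - 1) * χ t) + t ^ (-q) * deriv χ t := by
      filter_upwards [Ioi_mem_nhds hs0] with t ht
      rw [(hg (-q) t ht).deriv]
      ring
    have hg2 : deriv (deriv (fun s => s ^ (-q) * χ s)) s =
        -q * ((-q - 1) * s ^ (-q - 1 - 1) * χ s + s ^ (-q - 1) * deriv χ s) +
          (-q * s ^ (-q - 1) * deriv χ s + s ^ (-q) * deriv (deriv χ) s) := by
      rw [hev.deriv_eq]
      exact (((hg (-q - 1) s hs0).const_mul (-q)).add ((hr (-q) s hs0).mul (hχd2 s))).deriv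
    have hg3 : deriv (fun s => B s * (s ^ (-q) * χ s)) s =
        deriv B s * (s ^ (-q) * χ s) +
          B s * (-q * s ^ (-q - 1) * χ s + s ^ (-q) * deriv χ s) :=
      ((hBd s).mul (hg (-q) s hs0)).deriv
    have hg4 : deriv (fun s => κ * (B s * (s ^ (-q) * χ s) + 2 * q * (s ^ (-q - 1) * χ s))) s =
        κ * ((deriv B s * (s ^ (-q) * χ s) +
          B s * (-q * s ^ (-q - 1) * χ s + s ^ (-q) * deriv χ s)) +
          2 * q * ((-q - 1) * s ^ (-q - 1 - 1) * χ s + s ^ (-q - 1) * deriv χ s)) :=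
      ((((hBd s).mul (hg (-q) s hs0)).add ((hg (-q - 1) s hs0).const_mul (2 * q))).const_mul
        κ).deriv
    have hg5 : deriv (fun s => s * B s) s = 1 * B s + s * deriv B s :=
      ((hasDerivAt_id' s).mul (hBd s)).deriv
    have p0 : s ^ (-q) = s * s ^ (-q - 1) := by
      rw [Real.rpow_sub_one hs0.ne']
      field_simp
    have p1 : s ^ (-q - 1) = s * s ^ (-q - 1 - 1) := by
      rw [Real.rpow_sub_one hs0.ne' (-q - 1)]
      field_simp
    have p2 : s ^ (1 - q) = s * s ^ (-q) := by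
      rw [show 1 - q = -q + 1 by ring, Real.rpow_add_one hs0.ne']
      ring
    rw [hg1, hg2, hg3, hg4, hg5, p2, p0, p1]
    refine ⟨by ring, by ring, ?_, ?_⟩
    · rw [← hq]
      ring
    · have hm : m = 2 * (q + 1 - κ) := by linarith
      rw [hm]
      ring
  · have z1 := hχ.supp s hs
    have z2 := (Star_deriv hχ).supp s hs
    have z3 := (Star_deriv (Star_deriv hχ)).supp s hs
    have z4 := (Star_deriv (Star_rpow hχ (-q))).supp s hs
    have z5 := (Star_deriv (Star_deriv (Star_rpow hχ (-q)))).supp s hs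
    have z6 := (Star_deriv (Star_mul (Star_rpow hχ (-q)) hB)).supp s hs
    have z7 := (Star_deriv (Star_mul (Star_add (Star_mul (Star_rpow hχ (-q)) hB)
      (Star_mul (Star_rpow hχ (-q - 1)) (contDiff_const (c := 2 * q))))
      (contDiff_const (c := κ)))).supp s hs
    rw [z1, z2, z3, z4, z5, z6, z7]
    refine ⟨by ring, by ring, by ring, by ring⟩

theorem star {B : ℝ → ℝ} (hB : ContDiff ℝ ∞ B) (hu : ContDiff ℝ ∞ u) (hp : Pde B u) {χ : ℝ → ℝ}
    (hχ : Cut a b χ) (κ q : ℝ) (hq : q = (n : ℝ) / 2 - 1 + κ) :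
    ∫ x, (χ (sq x) * sq x ^ (-q - 1) * (sq x * B (sq x) + 2 * q) * (eu u x - κ * u x) ^ 2 +
      κ * χ (sq x) * sq x ^ (-q) * (-deriv (fun s => s * B s) (sq x)) * u x ^ 2) =
    ∫ x, (2 * sq x ^ (-q) * deriv χ (sq x) * eu u x ^ 2 -
      sq x ^ (1 - q) * deriv χ (sq x) * gr u x +
      κ * (sq x ^ (-q) * deriv χ (sq x) * (n + sq x * B (sq x)) +
        2 * sq x ^ (1 - q) * deriv (deriv χ) (sq x)) * u x ^ 2) := by
  have hcu : Continuous u := hu.continuous
  have hce : Continuous (eu u) := by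
    unfold eu
    exact continuous_finsetSum _ fun i _ =>
      (continuous_apply i).mul (contDiff_pder hu i).continuous
  have hcg : Continuous (gr u) := by
    unfold gr
    exact continuous_finsetSum _ fun i _ => (contDiff_pder hu i).continuous.pow 2
  have cg := Star_rpow hχ (-q)
  have ck := Star_rpow hχ (-q - 1)
  have cA : Cut a b (fun s => B s * (s ^ (-q) * χ s) + 2 * q * (s ^ (-q - 1) * χ s)) :=
    Star_add (Star_mul cg hB) (Star_mul ck contDiff_const)
  have ch : Cut a b (fun s => κ * (B s * (s ^ (-q) * χ s) + 2 * q * (s ^ (-q - 1) * χ s))) :=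
    Star_mul cA contDiff_const
  have e1 := idI hB hu hp cg κ
  have e2 := idII hu ch
  have hsB : ContDiff ℝ ∞ (fun s => deriv (fun s => s * B s) s) :=
    (contDiff_infty_iff_deriv.1 (contDiff_id.mul hB)).2
  have hid : ContDiff ℝ ∞ (fun s : ℝ => s) := contDiff_id
  have hco := fun s => Star_coef hB hχ κ q n hq s
  -- integrability
  have i1 : Integrable (fun x : Fin n → ℝ =>
      χ (sq x) * sq x ^ (-q - 1) * (sq x * B (sq x) + 2 * q) * (eu u x - κ * u x) ^ 2 +
      κ * χ (sq x) * sq x ^ (-q) * (-deriv (fun s => s * B s) (sq x)) * u x ^ 2) := by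
    have h1 := (Star_int cA (f := fun x => (eu u x - κ * u x) ^ 2) (by fun_prop)).add
      (Star_int (Star_mul cg hsB) (f := fun x => -κ * u x ^ 2) (by fun_prop))
    refine h1.congr (Filter.Eventually.of_forall fun x => ?_)
    simp only [Pi.add_apply]
    rw [(hco (sq x)).1]
    ring
  have i2 : Integrable (fun x : Fin n → ℝ => 2 * sq x ^ (-q) * deriv χ (sq x) * eu u x ^ 2 -
      sq x ^ (1 - q) * deriv χ (sq x) * gr u x +
      κ * (sq x ^ (-q) * deriv χ (sq x) * (n + sq x * B (sq x)) +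
        2 * sq x ^ (1 - q) * deriv (deriv χ) (sq x)) * u x ^ 2) := by
    have h1 := (((Star_int (Star_rpow (Star_deriv hχ) (-q)) (f := fun x => 2 * eu u x ^ 2)
      (by fun_prop)).sub (Star_int (Star_rpow (Star_deriv hχ) (1 - q)) (f := gr u) hcg)).add
      (Star_int (Star_mul (Star_rpow (Star_deriv hχ) (-q))
        ((contDiff_const (c := (n : ℝ))).add (hid.mul hB)))
        (f := fun x => κ * u x ^ 2) (by fun_prop))).add
      (Star_int (Star_rpow (Star_deriv (Star_deriv hχ)) (1 - q))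
        (f := fun x => 2 * κ * u x ^ 2) (by fun_prop))
    refine h1.congr (Filter.Eventually.of_forall fun x => ?_)
    simp only [Pi.add_apply, Pi.sub_apply]
    ring
  have i3 : Integrable (fun x : Fin n → ℝ => 2 * (κ * (B (sq x) * (sq x ^ (-q) * χ (sq x)) +
      2 * q * (sq x ^ (-q - 1) * χ (sq x)))) * u x * eu u x) := by
    have h1 := Star_int ch (f := fun x => 2 * u x * eu u x) (by fun_prop)
    refine h1.congr (Filter.Eventually.of_forall fun x => ?_)
    simp only []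
    ring
  have i4 : Integrable (fun x : Fin n → ℝ => ((n : ℝ) * (κ * (B (sq x) * (sq x ^ (-q) *
      χ (sq x)) + 2 * q * (sq x ^ (-q - 1) * χ (sq x)))) + 2 * sq x *
      deriv (fun s => κ * (B s * (s ^ (-q) * χ s) + 2 * q * (s ^ (-q - 1) * χ s))) (sq x)) *
        u x ^ 2) := by
    have h1 := (Star_int ch (f := fun x => n * u x ^ 2) (by fun_prop)).add
      (Star_int (Star_mul (Star_deriv ch) hid) (f := fun x => 2 * u x ^ 2) (by fun_prop))
    refine h1.congr (Filter.Eventually.of_forall fun x => ?_)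
    simp only [Pi.add_apply]
    ring
  have hsum := integral_add ((i1.sub i2).add i3) i4
  have hsum2 := integral_add (i1.sub i2) i3
  have hsum3 := integral_sub i1 i2
  have hzero : ∫ x : Fin n → ℝ, (((χ (sq x) * sq x ^ (-q - 1) * (sq x * B (sq x) + 2 * q) *
      (eu u x - κ * u x) ^ 2 +
      κ * χ (sq x) * sq x ^ (-q) * (-deriv (fun s => s * B s) (sq x)) * u x ^ 2) -
      (2 * sq x ^ (-q) * deriv χ (sq x) * eu u x ^ 2 -
      sq x ^ (1 - q) * deriv χ (sq x) * gr u x +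
      κ * (sq x ^ (-q) * deriv χ (sq x) * (n + sq x * B (sq x)) +
        2 * sq x ^ (1 - q) * deriv (deriv χ) (sq x)) * u x ^ 2)) +
      2 * (κ * (B (sq x) * (sq x ^ (-q) * χ (sq x)) +
      2 * q * (sq x ^ (-q - 1) * χ (sq x)))) * u x * eu u x) +
      ((n : ℝ) * (κ * (B (sq x) * (sq x ^ (-q) *
      χ (sq x)) + 2 * q * (sq x ^ (-q - 1) * χ (sq x)))) + 2 * sq x *
      deriv (fun s => κ * (B s * (s ^ (-q) * χ s) + 2 * q * (s ^ (-q - 1) * χ s))) (sq x)) *
        u x ^ 2 = 0 := by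
    rw [← e1]
    refine integral_congr_ae (Filter.Eventually.of_forall fun x => ?_)
    obtain ⟨c1, c2, c3, c4⟩ := hco (sq x)
    beta_reduce
    rw [c2, c3]
    linear_combination (2 * κ * u x * eu u x) * c1 + u x ^ 2 * c4
  have hsum' := hsum.symm.trans hzero
  have hsum2' := hsum2
  simp only [Pi.add_apply, Pi.sub_apply] at hsum' hsum2' hsum3
  linarith

end Vale.Agent.P225
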