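import Vale.Agent.Lib.P222W.Stmt

/-!
# P225R: statement level definitions

Riemannian metrics on `ℝ^n` are positive definite matrix functions; `pder` is the partial derivative, `lap` the
Laplace-Beltrami operator, `len` the length of a curve on `[0, 1]`.
-/

namespace Vale.Agent.P225

open Set MeasureTheory Filter Vale.Agent.P222
open scoped Topology ContDiff ENNReal

noncomputable section

variable {n : ℕ}

/-- The rotationally symmetric metric `F(|x|²) (dx₁² + ... + dxₙ²)` on `ℝ^n`. -/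
def conf (F : ℝ → ℝ) (x : Fin n → ℝ) : Matrix (Fin n) (Fin n) ℝ :=
  F (∑ i, x i ^ 2) • (1 : Matrix (Fin n) (Fin n) ℝ)

/-- The Christoffel symbol `Γ^k_{ij}` of the metric `g`. -/
def chris (g : (Fin n → ℝ) → Matrix (Fin n) (Fin n) ℝ) (k i j : Fin n) (x : Fin n → ℝ) : ℝ :=
  ∑ l, (g x)⁻¹ k l *
    ((pder i (fun y => g y j l) x + pder j (fun y => g y i l) x - pder l (fun y => g y i j) x) / 2)

/-- The Ricci curvature of the metric `g`:
`Ric_{ij} = ∂ₖ Γ^k_{ij} - ∂ⱼ Γ^k_{ik} + Γ^k_{kl} Γ^l_{ij} - Γ^k_{jl} Γ^l_{ik}`. -/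
def ric (g : (Fin n → ℝ) → Matrix (Fin n) (Fin n) ℝ) (x : Fin n → ℝ) : Matrix (Fin n) (Fin n) ℝ :=
  Matrix.of fun i j => ∑ k, (pder k (chris g k i j) x - pder j (chris g k i k) x +
    ∑ l, (chris g k k l x * chris g l i j x - chris g k j l x * chris g l i k x))

/-- The Riemannian distance of `(ℝ^n, g)`. -/
def gdist (g : (Fin n → ℝ) → Matrix (Fin n) (Fin n) ℝ) (x y : Fin n → ℝ) : ℝ≥0∞ :=
  ⨅ γ ∈ {γ : ℝ → Fin n → ℝ | ContDiff ℝ 1 γ ∧ γ 0 = x ∧ γ 1 = y}, ENNReal.ofReal (len g γ)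

/-- `(ℝ^n, g)` is complete: balls around the origin are bounded subsets of `ℝ^n` (Hopf-Rinow). -/
def IsCompl (g : (Fin n → ℝ) → Matrix (Fin n) (Fin n) ℝ) : Prop :=
  ∀ R : ℝ, Bornology.IsBounded {x : Fin n → ℝ | gdist g 0 x ≤ ENNReal.ofReal R}

/-- Harmonic functions of polynomial growth of degree at most `d` on `(ℝ^n, g)`. -/
structure HarmGrowth (g : (Fin n → ℝ) → Matrix (Fin n) (Fin n) ℝ) (d : ℝ) (u : (Fin n → ℝ) → ℝ) :
    Prop where
  smooth : ContDiff ℝ ∞ u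
  harmonic : ∀ x, lap g u x = 0
  growth : ∃ C : ℝ, ∀ x, |u x| ≤ C * (1 + (gdist g 0 x).toReal) ^ d

end

end Vale.Agent.P225
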